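import Mathlib

namespace Vale.Agent.P154.Q

open Finset

variable {q : ℕ}

/-- Total mass of a likelihood vector. -/
def mass (x : Fin q → ℝ) : ℝ := ∑ i, x i

/-- Mass times the normalised second moment of the posterior. -/
noncomputable def sV (x : Fin q → ℝ) : ℝ :=
  ((q : ℝ) * (∑ i, x i ^ 2) / mass x - mass x) / ((q : ℝ) - 1)

/-- Mass times one minus the normalised Bhattacharyya overlap. -/
noncomputable def hB (x : Fin q → ℝ) : ℝ :=
  mass x - (∑ i, ∑ j ∈ univ.erase i, Real.sqrt (x i * x j)) / ((q : ℝ) - 1)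

/-- The likelihood vector seen through one edge. -/
noncomputable def edge (l : ℝ) (x : Fin q → ℝ) : Fin q → ℝ :=
  fun i => l * x i + (1 - l) * mass x / q

/-- Average over the relabellings of the second vector. -/
noncomputable def orbAvg (f : (Fin q → ℝ) → ℝ) (x y : Fin q → ℝ) : ℝ :=
  (∑ s : Equiv.Perm (Fin q), f (fun i => x i * y (s i))) / (Nat.factorial q : ℝ)

/-- The pointwise edge inequality. -/
def EdgeCert (q : ℕ) : Prop :=
  ∀ l ∈ Set.Icc (0 : ℝ) 1, ∀ x : Fin q → ℝ, (∀ i, 0 ≤ x i) →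
    hB (edge l x) ≤ l ^ 2 * sV x + l ^ 3 * (hB x - sV x)

/-- The pointwise pair inequality. -/
def PairCert (q : ℕ) : Prop :=
  ∃ (qf : (Fin q → ℝ) → ℝ) (κ : ℝ), 0 < κ ∧
    (∀ x : Fin q → ℝ, (∀ i, 0 ≤ x i) → κ * sV x ≤ qf x ∧ qf x ≤ mass x) ∧
    ∀ x y : Fin q → ℝ, (∀ i, 0 ≤ x i) → (∀ i, 0 ≤ y i) →
      (q : ℝ) * orbAvg sV x y ≤ sV x * mass y + mass x * sV y
        + (hB x - sV x) * qf y + qf x * (hB y - sV y)

end Vale.Agent.P154.Q
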