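import Mathlib
import Vale.Agent.P154.Q.Defs

namespace Vale.Agent.P154.Q

open Finset

variable {q : ℕ}

/-- Tangent line of `a ↦ a⁻²` at `w`. -/
lemma inv_sq_tangent {a w : ℝ} (ha : 0 < a) (hw : 0 < w) :
    3 / w ^ 2 - 2 * a / w ^ 3 ≤ 1 / a ^ 2 := by
  have h : 1 / a ^ 2 - (3 / w ^ 2 - 2 * a / w ^ 3)
      = (w - a) ^ 2 * (w + 2 * a) / (a ^ 2 * w ^ 3) := by
    field_simp; ring
  have : 0 ≤ (w - a) ^ 2 * (w + 2 * a) / (a ^ 2 * w ^ 3) := by positivity
  linarith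

lemma inv_sq_convex {a b l : ℝ} (ha : 0 < a) (hb : 0 < b) (h0 : 0 ≤ l) (h1 : l ≤ 1) :
    1 / ((1 - l) * a + l * b) ^ 2 ≤ (1 - l) / a ^ 2 + l / b ^ 2 := by
  set w := (1 - l) * a + l * b with hw
  have hw0 : 0 < w := by
    rcases h0.eq_or_lt with h | h
    · rw [hw, ← h]; linarith
    · have := mul_pos h hb
      have := mul_nonneg (sub_nonneg.2 h1) ha.le
      linarith
  have e : (1 - l) * (3 / w ^ 2 - 2 * a / w ^ 3) + l * (3 / w ^ 2 - 2 * b / w ^ 3) = 1 / w ^ 2 := by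
    calc _ = 3 / w ^ 2 - 2 * ((1 - l) * a + l * b) / w ^ 3 := by ring
      _ = 3 / w ^ 2 - 2 * w / w ^ 3 := by rw [← hw]
      _ = 1 / w ^ 2 := by field_simp; ring
  have A := mul_le_mul_of_nonneg_left (inv_sq_tangent ha hw0) (sub_nonneg.2 h1)
  have B := mul_le_mul_of_nonneg_left (inv_sq_tangent hb hw0) h0
  calc 1 / w ^ 2 = _ := e.symm
    _ ≤ (1 - l) * (1 / a ^ 2) + l * (1 / b ^ 2) := add_le_add A B
    _ = (1 - l) / a ^ 2 + l / b ^ 2 := by ring

lemma sqrt_concave {u v l : ℝ} (hu : 0 ≤ u) (hv : 0 ≤ v) (h0 : 0 ≤ l) (h1 : l ≤ 1) :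
    (1 - l) * Real.sqrt u + l * Real.sqrt v ≤ Real.sqrt ((1 - l) * u + l * v) := by
  apply Real.le_sqrt_of_sq_le
  have a := Real.sq_sqrt hu
  have b := Real.sq_sqrt hv
  nlinarith [mul_nonneg (mul_nonneg h0 (sub_nonneg.2 h1)) (sq_nonneg (Real.sqrt u - Real.sqrt v))]

/-- One pair of colours. -/
lemma edge_pair {u v m k l : ℝ} (hu : 0 ≤ u) (hv : 0 ≤ v) (hm : 0 < m) (hk : 0 < k) (hk4 : k ≤ 4)
    (h0 : 0 ≤ l) (h1 : l ≤ 1) :
    (Real.sqrt (l * u + (1 - l) * m / k) - Real.sqrt (l * v + (1 - l) * m / k)) ^ 2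
      ≤ l ^ 2 * ((1 - l) * ((u - v) ^ 2 / m) + l * (Real.sqrt u - Real.sqrt v) ^ 2) := by
  rcases eq_or_ne u v with rfl | hne
  · simp
  have hb : 0 < Real.sqrt u + Real.sqrt v := by
    rcases lt_or_gt_of_ne hne with h | h
    · have := Real.sqrt_pos.2 (lt_of_le_of_lt hu h)
      linarith [Real.sqrt_nonneg u]
    · have := Real.sqrt_pos.2 (lt_of_le_of_lt hv h)
      linarith [Real.sqrt_nonneg v]
  set c := m / k with hc
  have hc0 : 0 < c := div_pos hm hk
  have eu : l * u + (1 - l) * m / k = (1 - l) * c + l * u := by rw [hc]; ring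
  have ev : l * v + (1 - l) * m / k = (1 - l) * c + l * v := by rw [hc]; ring
  rw [eu, ev]
  have U := sqrt_concave hc0.le hu h0 h1
  have V := sqrt_concave hc0.le hv h0 h1
  have ha : 0 < 2 * Real.sqrt c := by positivity
  set a := 2 * Real.sqrt c with hadef
  set b := Real.sqrt u + Real.sqrt v with hbdef
  have hw : 0 < (1 - l) * a + l * b := by
    rcases h0.eq_or_lt with h | h
    · rw [← h]; simpa using ha
    · have := mul_pos h hb
      have := mul_nonneg (sub_nonneg.2 h1) ha.le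
      linarith
  have hw' : (1 - l) * a + l * b
      ≤ Real.sqrt ((1 - l) * c + l * u) + Real.sqrt ((1 - l) * c + l * v) := by
    rw [hadef, hbdef]; linarith
  set A := Real.sqrt ((1 - l) * c + l * u) with hA
  set B := Real.sqrt ((1 - l) * c + l * v) with hB'
  have hA2 : A ^ 2 = (1 - l) * c + l * u := Real.sq_sqrt (by
    have := mul_nonneg (sub_nonneg.2 h1) hc0.le
    have := mul_nonneg h0 hu
    linarith)
  have hB2 : B ^ 2 = (1 - l) * c + l * v := Real.sq_sqrt (by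
    have := mul_nonneg (sub_nonneg.2 h1) hc0.le
    have := mul_nonneg h0 hv
    linarith)
  have hAB : (A - B) * (A + B) = l * (u - v) := by ring_nf; rw [hA2, hB2]; ring
  have hS : 0 < A + B := hw.trans_le hw'
  have e1 : (A - B) ^ 2 = (l * (u - v)) ^ 2 * (1 / (A + B) ^ 2) := by
    rw [← hAB]; field_simp
  have hb2 : (Real.sqrt u - Real.sqrt v) ^ 2 = (u - v) ^ 2 * (1 / b ^ 2) := by
    have : (Real.sqrt u - Real.sqrt v) * b = u - v := by
      rw [hbdef]; ring_nf; rw [Real.sq_sqrt hu, Real.sq_sqrt hv]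
    rw [← this]; field_simp
  have h2 : 1 / (A + B) ^ 2 ≤ (1 - l) * (1 / m) + l * (1 / b ^ 2) := by
    refine ((one_div_le_one_div_of_le (by positivity) (pow_le_pow_left₀ hw.le hw' 2)).trans
      (inv_sq_convex ha hb h0 h1)).trans ?_
    have ha2 : a ^ 2 = 4 * c := by rw [hadef, mul_pow, Real.sq_sqrt hc0.le]; ring
    have h4 : 1 / a ^ 2 ≤ 1 / m := by
      refine one_div_le_one_div_of_le hm ?_
      rw [ha2, hc, ← mul_div_assoc, le_div_iff₀ hk]
      nlinarith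
    have := mul_le_mul_of_nonneg_left h4 (sub_nonneg.2 h1)
    have e : (1 - l) / a ^ 2 + l / b ^ 2 = (1 - l) * (1 / a ^ 2) + l * (1 / b ^ 2) := by ring
    linarith
  rw [e1, hb2]
  refine (mul_le_mul_of_nonneg_left h2 (sq_nonneg _)).trans (le_of_eq ?_)
  ring

lemma pair_sum (x : Fin q → ℝ) :
    ∑ i, ∑ j ∈ univ.erase i, (x i + x j) = 2 * ((q : ℝ) - 1) * mass x := by
  simp only [sum_erase_eq_sub (mem_univ _), sum_add_distrib, sum_sub_distrib, sum_const,
    card_univ, Fintype.card_fin, nsmul_eq_mul, mass, ← mul_sum]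
  ring

lemma hB_eq (hq : 2 ≤ q) {x : Fin q → ℝ} (hx : ∀ i, 0 ≤ x i) :
    hB x = (∑ i, ∑ j ∈ univ.erase i, (Real.sqrt (x i) - Real.sqrt (x j)) ^ 2)
      / (2 * ((q : ℝ) - 1)) := by
  have hq' : (0 : ℝ) < (q : ℝ) - 1 := by
    have : (2 : ℝ) ≤ q := by exact_mod_cast hq
    linarith
  have e : ∀ i j, (Real.sqrt (x i) - Real.sqrt (x j)) ^ 2
      = (x i + x j) - 2 * Real.sqrt (x i * x j) := fun i j => by
    rw [Real.sqrt_mul (hx i), sub_sq, Real.sq_sqrt (hx i), Real.sq_sqrt (hx j)]; ring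
  simp only [e, sum_sub_distrib, ← mul_sum, hB, pair_sum]
  field_simp

lemma sV_eq (hq : 2 ≤ q) {x : Fin q → ℝ} (hm : mass x ≠ 0) :
    sV x = (∑ i, ∑ j ∈ univ.erase i, (x i - x j) ^ 2 / mass x) / (2 * ((q : ℝ) - 1)) := by
  have hq' : (q : ℝ) - 1 ≠ 0 := by
    have : (2 : ℝ) ≤ q := by exact_mod_cast hq
    linarith
  have e : ∑ i, ∑ j ∈ univ.erase i, (x i - x j) ^ 2
      = 2 * (q : ℝ) * ∑ i, x i ^ 2 - 2 * mass x ^ 2 := by
    have h : ∀ i, ∑ j ∈ univ.erase i, (x i - x j) ^ 2 = ∑ j, (x i - x j) ^ 2 := fun i =>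
      sum_erase _ (by simp)
    rw [sum_congr rfl fun i _ => h i]
    simp only [sub_sq, sum_add_distrib, sum_sub_distrib, sum_const, card_univ, Fintype.card_fin,
      nsmul_eq_mul, mass, ← mul_sum, ← sum_mul]
    ring
  simp only [← sum_div, e, sV]
  field_simp

/-- The edge certificate, for two, three and four spins. -/
theorem edgeCert (hq : 2 ≤ q) (hq4 : q ≤ 4) : EdgeCert q := by
  intro l hl x hx
  have hq2 : (2 : ℝ) ≤ q := by exact_mod_cast hq
  have hm0 : 0 ≤ mass x := sum_nonneg fun i _ => hx i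
  rcases hm0.eq_or_lt with hm | hm
  · have hx0 : x = fun _ => 0 := funext fun i =>
      (sum_eq_zero_iff_of_nonneg fun i _ => hx i).1 hm.symm i (mem_univ i)
    subst hx0
    simp [hB, sV, edge, mass]
  have he0 : ∀ i, 0 ≤ edge l x i := fun i =>
    add_nonneg (mul_nonneg hl.1 (hx i))
      (div_nonneg (mul_nonneg (sub_nonneg.2 hl.2) hm.le) (by linarith))
  rw [hB_eq hq he0, hB_eq hq hx, sV_eq hq hm.ne', ← sub_div, ← mul_div_assoc, ← mul_div_assoc,
    ← add_div]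
  refine div_le_div_of_nonneg_right ?_ (by linarith)
  simp only [← sum_sub_distrib, mul_sum, ← sum_add_distrib]
  refine sum_le_sum fun i _ => sum_le_sum fun j _ => ?_
  refine (edge_pair (hx i) (hx j) hm (by linarith) (by exact_mod_cast hq4) hl.1 hl.2).trans
    (le_of_eq ?_)
  ring

end Vale.Agent.P154.Q
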