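import Mathlib

namespace Vale.Agent.P154.Q

open Filter Topology

/-- Signals of a root with `k` children, given the signals `ex, eh, eq` of one child. -/
structure Fam (ex eh eq : ℝ) (x h g : ℕ → ℝ) : Prop where
  x_zero : x 0 = 0
  h_zero : h 0 = 0
  x_one : x 1 = ex
  g_one : g 1 = eq
  g_mem : ∀ k, 0 ≤ g k ∧ g k ≤ 1
  eh_mem : 0 ≤ eh ∧ eh ≤ 1
  eq_mem : 0 ≤ eq ∧ eq ≤ 1
  h_succ : ∀ k, h (k + 1) = eh + (1 - eh) * h k
  h_nonneg : ∀ k, 0 ≤ h k
  x_succ : ∀ k, x (k + 1) ≤ ex + x k + eq * (h k - x k) + g k * (eh - ex)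

namespace Fam

variable {ex eh eq u G : ℝ} {x h g : ℕ → ℝ}

lemma max_succ (F : Fam ex eh eq x h g) (hx : ex ≤ u) (hh : eh ≤ u) (k : ℕ) :
    max (x (k + 1)) (h (k + 1)) ≤ u + max (x k) (h k) := by
  have h1 := le_max_left (x k) (h k)
  have h2 := le_max_right (x k) (h k)
  refine max_le ?_ ?_
  · have hs := F.x_succ k
    have a := mul_nonneg (F.g_mem k).1 (sub_nonneg.2 hh)
    have b := mul_nonneg (sub_nonneg.2 (F.g_mem k).2) (sub_nonneg.2 hx)
    have c := mul_nonneg F.eq_mem.1 (sub_nonneg.2 h2)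
    have e := mul_nonneg (sub_nonneg.2 F.eq_mem.2) (sub_nonneg.2 h1)
    linarith
  · rw [F.h_succ k]
    have := mul_nonneg F.eh_mem.1 (F.h_nonneg k)
    linarith

lemma max_le_mul (F : Fam ex eh eq x h g) (hx : ex ≤ u) (hh : eh ≤ u) :
    ∀ k : ℕ, max (x k) (h k) ≤ k * u
  | 0 => by simp [F.x_zero, F.h_zero]
  | k + 1 => by
    have := F.max_succ hx hh k
    have := max_le_mul F hx hh k
    push_cast
    linarith

lemma h_two (F : Fam ex eh eq x h g) (hh : eh ≤ u) (hu : u ≤ 1) : h 2 ≤ 2 * u - u ^ 2 := by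
  rw [F.h_succ 1, F.h_succ 0, F.h_zero]
  nlinarith [mul_nonneg (sub_nonneg.2 hh) (show (0 : ℝ) ≤ 2 - u - eh by linarith)]

lemma x_two (F : Fam ex eh eq x h g) : x 2 ≤ 2 * ex + 2 * eq * (eh - ex) := by
  have := F.x_succ 1
  rw [F.x_one, F.g_one, F.h_succ 0, F.h_zero] at this
  linarith

lemma max_gain (F : Fam ex eh eq x h g) (hx : ex ≤ u) (hh : eh ≤ u)
    (h2 : max (x 2) (h 2) ≤ 2 * u - G) : ∀ k : ℕ, max (x (k + 2)) (h (k + 2)) ≤ (k + 2 : ℕ) * u - G
  | 0 => by simpa using h2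
  | k + 1 => by
    have := F.max_succ hx hh (k + 2)
    have := max_gain F hx hh h2 k
    push_cast at *
    linarith

lemma h_le (F : Fam ex eh eq x h g) (hh : eh ≤ u) : ∀ k : ℕ, h k ≤ k * u
  | 0 => by simp [F.h_zero]
  | k + 1 => by
    rw [F.h_succ k]
    have := mul_nonneg F.eh_mem.1 (F.h_nonneg k)
    have := h_le F hh k
    push_cast
    linarith

lemma h_gain (F : Fam ex eh eq x h g) (hh : eh ≤ u) (hu : u ≤ 1) :
    ∀ k : ℕ, h (k + 2) ≤ (k + 2 : ℕ) * u - u ^ 2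
  | 0 => by simpa using F.h_two hh hu
  | k + 1 => by
    rw [F.h_succ (k + 2)]
    have := mul_nonneg F.eh_mem.1 (F.h_nonneg (k + 2))
    have := h_gain F hh hu k
    push_cast at *
    linarith

/-- The strict loss of two equal children. -/
lemma gain_two (F : Fam ex eh eq x h g) {l κ X H : ℝ} (hl : 0 ≤ l) (hκ : 0 ≤ κ) (hX0 : 0 ≤ X)
    (hex : ex = l ^ 2 * X) (heh : eh ≤ l ^ 2 * X + l ^ 3 * (H - X)) (hq : κ * ex ≤ eq)
    (hHX : H ≤ X) (hx : ex ≤ u) (hh : eh ≤ u) (hu : u ≤ 1) :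
    max (x 2) (h 2) ≤ 2 * u - min (u ^ 2) (2 * κ * l ^ 5 * (X * (X - H))) := by
  have h1 := F.h_two hh hu
  have h2 := F.x_two
  have hd : l ^ 3 * (X - H) ≤ ex - eh := by rw [hex]; linarith
  have hd0 : 0 ≤ l ^ 3 * (X - H) := mul_nonneg (pow_nonneg hl 3) (sub_nonneg.2 hHX)
  have hκe : 0 ≤ κ * ex := mul_nonneg hκ (by rw [hex]; positivity)
  have h3 := mul_le_mul hq hd hd0 F.eq_mem.1
  have e : κ * ex * (l ^ 3 * (X - H)) = κ * l ^ 5 * (X * (X - H)) := by rw [hex]; ring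
  rw [e] at h3
  refine max_le ?_ ?_
  · linarith [min_le_right (u ^ 2) (2 * κ * l ^ 5 * (X * (X - H)))]
  · linarith [min_le_left (u ^ 2) (2 * κ * l ^ 5 * (X * (X - H)))]

end Fam

/-- A nonincreasing potential whose two components cannot both stay at the top tends to zero. -/
lemma potential_to_zero {x h : ℕ → ℝ} {p a b : ℝ} (hp : 0 < p) (ha : 0 < a) (hb : 0 < b)
    (hx : ∀ n, 0 ≤ x n) (hanti : ∀ n, max (x (n + 1)) (h (n + 1)) ≤ max (x n) (h n))
    (hH : ∀ n, h (n + 1) ≤ max (x n) (h n) - p * (a * max (x n) (h n)) ^ 2)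
    (hX : ∀ n, h n ≤ x n → max (x (n + 1)) (h (n + 1))
      ≤ max (x n) (h n) - p * min ((a * max (x n) (h n)) ^ 2) (b * (x n * (x n - h n)))) :
    Tendsto (fun n => max (x n) (h n)) atTop (𝓝 0) := by
  set m := fun n => max (x n) (h n) with hm
  have hm0 : ∀ n, 0 ≤ m n := fun n => (hx n).trans (le_max_left _ _)
  have hanti' : Antitone m := antitone_nat_of_succ_le hanti
  have hbd : BddBelow (Set.range m) := ⟨0, by rintro _ ⟨n, rfl⟩; exact hm0 n⟩
  have hL := tendsto_atTop_ciInf hanti' hbd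
  set L := ⨅ n, m n
  have hL0 : 0 ≤ L := le_ciInf hm0
  have hLe : ∀ n, L ≤ m n := fun n => ciInf_le hbd n
  rcases hL0.eq_or_lt with h' | hpos
  · rwa [← h'] at hL
  exfalso
  set δ := p * (a * L) ^ 2 with hδ
  have hδ0 : 0 < δ := by positivity
  set c := p * min ((a * L) ^ 2) (b * (L * (δ / 2))) with hc
  have hc0 : 0 < c := mul_pos hp (lt_min (by positivity) (by positivity))
  obtain ⟨N, hN⟩ := (hL.eventually (eventually_lt_nhds (show L < L + min (δ / 2) c from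
    lt_add_of_pos_right L (lt_min (by positivity) hc0)))).exists_forall_of_atTop
  have hN1 := hN N le_rfl
  have hN2 := hN (N + 1) (Nat.le_succ N)
  have mono : ∀ n, δ ≤ p * (a * m n) ^ 2 := fun n =>
    mul_le_mul_of_nonneg_left (pow_le_pow_left₀ (by positivity)
      (mul_le_mul_of_nonneg_left (hLe n) ha.le) 2) hp.le
  have hh := hH N
  have hh2 : h (N + 1) ≤ L - δ / 2 := by
    have := mono N
    have := min_le_left (δ / 2) c
    simp only [hm] at *
    linarith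
  have hxL : L ≤ x (N + 1) := by
    rcases le_max_iff.1 (hLe (N + 1)) with h'' | h''
    · exact h''
    · linarith
  have hle := hX (N + 1) (by linarith)
  have hmin : c ≤ p * min ((a * m (N + 1)) ^ 2) (b * (x (N + 1) * (x (N + 1) - h (N + 1)))) := by
    refine mul_le_mul_of_nonneg_left (min_le_min ?_ ?_) hp.le
    · exact pow_le_pow_left₀ (by positivity) (mul_le_mul_of_nonneg_left (hLe (N + 1)) ha.le) 2
    · exact mul_le_mul_of_nonneg_left
        (mul_le_mul hxL (by linarith) (by positivity) (by linarith)) hb.le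
  have := hLe (N + 1 + 1)
  have := min_le_right (δ / 2) c
  simp only [hm] at *
  linarith

end Vale.Agent.P154.Q
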