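import Mathlib
import Vale.Agent.P154.Q.Defs

namespace Vale.Agent.P154.Q

open Finset

variable {q : ℕ}

lemma mass_perm (x : Fin q → ℝ) (p : Equiv.Perm (Fin q)) : mass (fun i => x (p i)) = mass x :=
  Equiv.sum_comp p x

lemma mass_nonneg {x : Fin q → ℝ} (hx : ∀ i, 0 ≤ x i) : 0 ≤ mass x :=
  Finset.sum_nonneg fun i _ => hx i

lemma le_mass {x : Fin q → ℝ} (hx : ∀ i, 0 ≤ x i) (i : Fin q) : x i ≤ mass x :=
  Finset.single_le_sum (fun j _ => hx j) (Finset.mem_univ i)

lemma eq_zero_of_mass {x : Fin q → ℝ} (hx : ∀ i, 0 ≤ x i) (h : mass x = 0) (i : Fin q) :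
    x i = 0 :=
  le_antisymm (h ▸ le_mass hx i) (hx i)

lemma qm1_pos (hq : 2 ≤ q) : (0 : ℝ) < (q : ℝ) - 1 := by
  have : (2 : ℝ) ≤ q := by exact_mod_cast hq
  linarith

lemma q_pos (hq : 2 ≤ q) : (0 : ℝ) < (q : ℝ) := by
  have : (2 : ℝ) ≤ q := by exact_mod_cast hq
  linarith

lemma centred_sq (hq : 2 ≤ q) {x : Fin q → ℝ} (hx : ∀ i, 0 ≤ x i) :
    ∑ j, (x j - mass x / q) ^ 2 / mass x = ((q : ℝ) - 1) / q * sV x := by
  have h0 := q_pos hq
  have h1 := qm1_pos hq
  rcases (mass_nonneg hx).eq_or_lt with h | hs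
  · simp [sV, ← h]
  · rw [← Finset.sum_div]
    have e : ∀ j, (x j - mass x / q) ^ 2
        = x j ^ 2 - 2 * (mass x / q) * x j + (mass x / q) ^ 2 := fun j => by ring
    simp only [e, Finset.sum_add_distrib, Finset.sum_sub_distrib, ← Finset.mul_sum,
      Finset.sum_const, Finset.card_univ, Fintype.card_fin, nsmul_eq_mul]
    rw [show (∑ i, x i) = mass x from rfl, sV]
    field_simp
    ring

lemma sV_nonneg (hq : 2 ≤ q) {x : Fin q → ℝ} (hx : ∀ i, 0 ≤ x i) : 0 ≤ sV x := by
  have h := centred_sq hq hx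
  have h2 : 0 ≤ ∑ j, (x j - mass x / q) ^ 2 / mass x :=
    Finset.sum_nonneg fun j _ => div_nonneg (sq_nonneg _) (mass_nonneg hx)
  rw [h] at h2
  exact nonneg_of_mul_nonneg_right h2 (div_pos (qm1_pos hq) (q_pos hq))

lemma sV_le_mass (hq : 2 ≤ q) {x : Fin q → ℝ} (hx : ∀ i, 0 ≤ x i) : sV x ≤ mass x := by
  rw [sV, div_le_iff₀ (qm1_pos hq)]
  have h : ∑ i, x i ^ 2 ≤ mass x * mass x := by
    calc ∑ i, x i ^ 2 ≤ ∑ i, x i * mass x := Finset.sum_le_sum fun i _ => by
          rw [sq]; exact mul_le_mul_of_nonneg_left (le_mass hx i) (hx i)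
      _ = mass x * mass x := by rw [← Finset.sum_mul]; rfl
  have h2 : (q : ℝ) * (∑ i, x i ^ 2) / mass x ≤ (q : ℝ) * mass x := by
    rcases (mass_nonneg hx).eq_or_lt with h' | h'
    · simp [← h']
    · rw [div_le_iff₀ h', mul_assoc]; exact mul_le_mul_of_nonneg_left h (Nat.cast_nonneg q)
  linarith

lemma hB_le_mass (hq : 2 ≤ q) (x : Fin q → ℝ) : hB x ≤ mass x :=
  sub_le_self _ (div_nonneg (Finset.sum_nonneg fun _ _ => Finset.sum_nonneg fun _ _ =>
    Real.sqrt_nonneg _) (qm1_pos hq).le)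

lemma hB_nonneg (hq : 2 ≤ q) {x : Fin q → ℝ} (hx : ∀ i, 0 ≤ x i) : 0 ≤ hB x := by
  rw [hB, sub_nonneg, div_le_iff₀ (qm1_pos hq)]
  have hr : ∀ i j, Real.sqrt (x i * x j) ≤ (x i + x j) / 2 := fun i j => by
    rw [Real.sqrt_le_iff]
    exact ⟨by linarith [hx i, hx j], by nlinarith [sq_nonneg (x i - x j)]⟩
  refine le_trans (Finset.sum_le_sum fun i _ => Finset.sum_le_sum fun j _ => hr i j) (le_of_eq ?_)
  simp only [← Finset.sum_div, Finset.sum_add_distrib]
  simp only [Finset.sum_erase_eq_sub (Finset.mem_univ _), Finset.sum_const, Finset.card_univ,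
    Fintype.card_fin, nsmul_eq_mul, Finset.sum_sub_distrib, ← Finset.mul_sum, mass]
  ring

lemma mass_edge (hq : 2 ≤ q) (l : ℝ) (x : Fin q → ℝ) : mass (edge l x) = mass x := by
  have := q_pos hq
  simp only [mass, edge, Finset.sum_add_distrib, ← Finset.mul_sum, Finset.sum_const,
    Finset.card_univ, Fintype.card_fin, nsmul_eq_mul]
  field_simp
  ring

lemma edge_nonneg (hq : 2 ≤ q) {l : ℝ} (h0 : 0 ≤ l) (h1 : l ≤ 1) {x : Fin q → ℝ}
    (hx : ∀ i, 0 ≤ x i) (i : Fin q) : 0 ≤ edge l x i :=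
  add_nonneg (mul_nonneg h0 (hx i))
    (div_nonneg (mul_nonneg (sub_nonneg.2 h1) (mass_nonneg hx)) (q_pos hq).le)

lemma sV_edge (hq : 2 ≤ q) (l : ℝ) {x : Fin q → ℝ} (hx : ∀ i, 0 ≤ x i) :
    sV (edge l x) = l ^ 2 * sV x := by
  have h0 := q_pos hq
  rcases (mass_nonneg hx).eq_or_lt with h | hs
  · simp [sV, mass_edge hq, ← h]
  · have e : ∀ j, edge l x j ^ 2 = l ^ 2 * x j ^ 2
        + 2 * l * ((1 - l) * mass x / q) * x j + ((1 - l) * mass x / q) ^ 2 := fun j => by
      simp only [edge]; ring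
    simp only [sV, mass_edge hq, e, Finset.sum_add_distrib, ← Finset.mul_sum, Finset.sum_const,
      Finset.card_univ, Fintype.card_fin, nsmul_eq_mul, show (∑ i, x i) = mass x from rfl]
    field_simp
    ring

variable {A B : Type} [Fintype A] [Fintype B]

/-- Symmetric channel given by its likelihood vectors. -/
structure Good (L : A → Fin q → ℝ) : Prop where
  nonneg : ∀ o i, 0 ≤ L o i
  col : ∀ i, ∑ o, L o i = 1
  sym : ∀ (f : (Fin q → ℝ) → ℝ) (p : Equiv.Perm (Fin q)),
    ∑ o, f (fun i => L o (p i)) = ∑ o, f (L o)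

/-- Two conditionally independent observations. -/
def prodL (L : A → Fin q → ℝ) (M : B → Fin q → ℝ) : A × B → Fin q → ℝ :=
  fun o i => L o.1 i * M o.2 i

/-- Averaged functional of a channel. -/
noncomputable def chF (f : (Fin q → ℝ) → ℝ) (L : A → Fin q → ℝ) : ℝ := (∑ o, f (L o)) / q

lemma Good.sum_mass {L : A → Fin q → ℝ} (hL : Good L) : ∑ o, mass (L o) = q := by
  simp only [mass]; rw [Finset.sum_comm]; simp [hL.col]

lemma chF_nonneg {f : (Fin q → ℝ) → ℝ} {L : A → Fin q → ℝ} (hL : Good L)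
    (hf : ∀ x, (∀ i, 0 ≤ x i) → 0 ≤ f x) : 0 ≤ chF f L :=
  div_nonneg (Finset.sum_nonneg fun o _ => hf _ (hL.nonneg o)) (Nat.cast_nonneg q)

lemma chF_le_one (hq : 2 ≤ q) {f : (Fin q → ℝ) → ℝ} {L : A → Fin q → ℝ} (hL : Good L)
    (hf : ∀ x, (∀ i, 0 ≤ x i) → f x ≤ mass x) : chF f L ≤ 1 := by
  rw [chF, div_le_one (q_pos hq), ← hL.sum_mass]
  exact Finset.sum_le_sum fun o _ => hf _ (hL.nonneg o)

lemma chF_mem (hq : 2 ≤ q) {L : A → Fin q → ℝ} (hL : Good L) :
    (0 ≤ chF sV L ∧ chF sV L ≤ 1) ∧ (0 ≤ chF hB L ∧ chF hB L ≤ 1) :=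
  ⟨⟨chF_nonneg hL fun _ h => sV_nonneg hq h, chF_le_one hq hL fun _ h => sV_le_mass hq h⟩,
    chF_nonneg hL fun _ h => hB_nonneg hq h, chF_le_one hq hL fun x _ => hB_le_mass hq x⟩

lemma Good.child (hq : 2 ≤ q) {L : A → Fin q → ℝ} (hL : Good L) {l : ℝ} (h0 : 0 ≤ l)
    (h1 : l ≤ 1) : Good (fun o => edge l (L o)) where
  nonneg o i := edge_nonneg hq h0 h1 (hL.nonneg o) i
  col i := by
    have := q_pos hq
    simp only [edge, Finset.sum_add_distrib, ← Finset.sum_div, ← Finset.mul_sum, hL.col,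
      hL.sum_mass]
    field_simp
    ring
  sym f p := by
    have : ∀ o, (fun i => edge l (L o) (p i)) = edge l (fun i => L o (p i)) := by
      intro o; funext i; simp only [edge, mass_perm]
    simp only [this]
    exact hL.sym (fun x => f (edge l x)) p

lemma chX_child (hq : 2 ≤ q) {L : A → Fin q → ℝ} (hL : Good L) (l : ℝ) :
    chF sV (fun o => edge l (L o)) = l ^ 2 * chF sV L := by
  simp only [chF, fun o => sV_edge hq l (hL.nonneg o), ← Finset.mul_sum, mul_div_assoc]

lemma chH_child (hE : EdgeCert q) {L : A → Fin q → ℝ} (hL : Good L) {l : ℝ} (h0 : 0 ≤ l)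
    (h1 : l ≤ 1) :
    chF hB (fun o => edge l (L o)) ≤ l ^ 2 * chF sV L + l ^ 3 * (chF hB L - chF sV L) := by
  have h : ∑ o, hB (edge l (L o))
      ≤ ∑ o, (l ^ 2 * sV (L o) + l ^ 3 * (hB (L o) - sV (L o))) :=
    Finset.sum_le_sum fun o _ => hE l ⟨h0, h1⟩ _ (hL.nonneg o)
  simp only [Finset.sum_add_distrib, ← Finset.mul_sum, Finset.sum_sub_distrib] at h
  refine le_trans (div_le_div_of_nonneg_right h (Nat.cast_nonneg q)) (le_of_eq ?_)
  simp only [chF]; ring

lemma Good.prod {L : A → Fin q → ℝ} {M : B → Fin q → ℝ} (hL : Good L) (hM : Good M) :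
    Good (prodL L M) where
  nonneg o i := mul_nonneg (hL.nonneg o.1 i) (hM.nonneg o.2 i)
  col i := by
    rw [Fintype.sum_prod_type]
    simp only [prodL, ← Finset.mul_sum, hM.col, mul_one, hL.col]
  sym f p := by
    rw [Fintype.sum_prod_type, Fintype.sum_prod_type]
    simp only [prodL]
    rw [hL.sym (fun x => ∑ b, f (fun i => x i * M b (p i))) p]
    exact Finset.sum_congr rfl fun a _ => hM.sym (fun y => f (fun i => L a i * y i)) p

lemma orb_sum {L : A → Fin q → ℝ} {M : B → Fin q → ℝ} (hM : Good M)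
    (f : (Fin q → ℝ) → ℝ) : ∑ a, ∑ b, orbAvg f (L a) (M b) = ∑ o, f (prodL L M o) := by
  rw [Fintype.sum_prod_type]
  refine Finset.sum_congr rfl fun a _ => ?_
  simp only [orbAvg, ← Finset.sum_div]
  rw [Finset.sum_comm]
  have e : ∀ s : Equiv.Perm (Fin q), ∑ b, f (fun i => L a i * M b (s i))
      = ∑ b, f (fun i => L a i * M b i) :=
    fun s => hM.sym (fun y => f (fun i => L a i * y i)) s
  have hfac : ((q.factorial : ℕ) : ℝ) ≠ 0 := by exact_mod_cast q.factorial_ne_zero
  simp only [e, Finset.sum_const, Finset.card_univ, Fintype.card_perm, Fintype.card_fin,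
    nsmul_eq_mul]
  rw [mul_div_cancel_left₀ _ hfac]
  rfl

/-- Subadditivity of the second moment up to the Bhattacharyya surplus. -/
theorem chX_prod_le (hq : 2 ≤ q) {qf : (Fin q → ℝ) → ℝ}
    (hP : ∀ x y : Fin q → ℝ, (∀ i, 0 ≤ x i) → (∀ i, 0 ≤ y i) →
      (q : ℝ) * orbAvg sV x y ≤ sV x * mass y + mass x * sV y
        + (hB x - sV x) * qf y + qf x * (hB y - sV y))
    {L : A → Fin q → ℝ} {M : B → Fin q → ℝ} (hL : Good L) (hM : Good M) :
    chF sV (prodL L M) ≤ chF sV L + chF sV M + (chF hB L - chF sV L) * chF qf M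
      + chF qf L * (chF hB M - chF sV M) := by
  have h : ∑ a, ∑ b, (q : ℝ) * orbAvg sV (L a) (M b)
      ≤ ∑ a, ∑ b, (sV (L a) * mass (M b) + mass (L a) * sV (M b)
        + (hB (L a) - sV (L a)) * qf (M b) + qf (L a) * (hB (M b) - sV (M b))) :=
    Finset.sum_le_sum fun a _ => Finset.sum_le_sum fun b _ => hP _ _ (hL.nonneg a) (hM.nonneg b)
  simp only [← Finset.mul_sum, orb_sum hM, Finset.sum_add_distrib, ← Finset.sum_mul,
    Finset.sum_sub_distrib, hL.sum_mass, hM.sum_mass] at h
  have h0 := q_pos hq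
  simp only [chF]
  refine le_of_mul_le_mul_left ?_ (mul_pos h0 h0)
  field_simp
  linarith

/-- The Bhattacharyya overlap of two fixed spins. -/
lemma overlap_eq {L : A → Fin q → ℝ} (hL : Good L) {i j i' j' : Fin q} (h : i ≠ j) (h' : i' ≠ j') :
    ∑ o, Real.sqrt (L o i * L o j) = ∑ o, Real.sqrt (L o i' * L o j') := by
  set p : Equiv.Perm (Fin q) := Equiv.swap (Equiv.swap i i' j) j' * Equiv.swap i i' with hp
  have hj : p j = j' := by simp [hp]
  have hne : Equiv.swap i i' j ≠ i' := fun e => h ((Equiv.swap i i').injective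
    ((Equiv.swap_apply_left i i').trans e.symm))
  have hi : p i = i' := by simp [hp, Equiv.swap_apply_of_ne_of_ne hne.symm h']
  have := hL.sym (fun x => Real.sqrt (x i * x j)) p
  simp only [hi, hj] at this
  exact this.symm

lemma chH_eq (hq : 2 ≤ q) {L : A → Fin q → ℝ} (hL : Good L) {i j : Fin q} (h : i ≠ j) :
    1 - chF hB L = ∑ o, Real.sqrt (L o i * L o j) := by
  have h0 := q_pos hq
  have h1 := qm1_pos hq
  have e : ∑ o, ∑ a, ∑ b ∈ univ.erase a, Real.sqrt (L o a * L o b)
      = (q : ℝ) * ((q : ℝ) - 1) * ∑ o, Real.sqrt (L o i * L o j) := by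
    rw [Finset.sum_comm]
    have : ∀ a : Fin q, ∑ o, ∑ b ∈ univ.erase a, Real.sqrt (L o a * L o b)
        = ((q : ℝ) - 1) * ∑ o, Real.sqrt (L o i * L o j) := by
      intro a
      rw [Finset.sum_comm, Finset.sum_congr rfl
        (fun b hb => overlap_eq hL (Finset.ne_of_mem_erase hb).symm h), Finset.sum_const,
        Finset.card_erase_of_mem (Finset.mem_univ a), Finset.card_univ, Fintype.card_fin,
        nsmul_eq_mul, Nat.cast_sub (by omega), Nat.cast_one]
    simp only [this, Finset.sum_const, Finset.card_univ, Fintype.card_fin, nsmul_eq_mul]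
    ring
  simp only [chF, hB, Finset.sum_sub_distrib, hL.sum_mass, ← Finset.sum_div]
  rw [e]
  field_simp
  ring

/-- The overlap is exactly multiplicative. -/
theorem chH_prod (hq : 2 ≤ q) {L : A → Fin q → ℝ} {M : B → Fin q → ℝ} (hL : Good L)
    (hM : Good M) : 1 - chF hB (prodL L M) = (1 - chF hB L) * (1 - chF hB M) := by
  have h : (⟨0, by omega⟩ : Fin q) ≠ ⟨1, by omega⟩ := by simp [Fin.ext_iff]
  rw [chH_eq hq (hL.prod hM) h, chH_eq hq hL h, chH_eq hq hM h, Fintype.sum_prod_type,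
    Finset.sum_mul]
  refine Finset.sum_congr rfl fun a _ => ?_
  rw [Finset.mul_sum]
  refine Finset.sum_congr rfl fun b _ => ?_
  rw [← Real.sqrt_mul (mul_nonneg (hL.nonneg _ _) (hL.nonneg _ _))]
  congr 1
  simp only [prodL]; ring

/-- Observing nothing besides `L`. -/
lemma chF_prod_unit (f : (Fin q → ℝ) → ℝ) (L : A → Fin q → ℝ) (M : PUnit → Fin q → ℝ)
    (hM : ∀ o i, M o i = 1) : chF f (prodL L M) = chF f L := by
  simp only [chF, Fintype.sum_prod_type, Fintype.univ_punit, Finset.sum_singleton]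
  congr 1
  refine Finset.sum_congr rfl fun o _ => congrArg f ?_
  funext i
  simp [prodL, hM]

lemma two_chX (hq : 2 ≤ q) {L : A → Fin q → ℝ} (hL : Good L) :
    ∑ o, ∑ j, (L o j - mass (L o) / q) ^ 2 / mass (L o) = ((q : ℝ) - 1) * chF sV L := by
  simp only [fun o => centred_sq hq (hL.nonneg o), ← Finset.mul_sum, chF]
  ring

/-- Existence of an unbiased linear estimator with signal a and power b. -/
def Est (L : A → Fin q → ℝ) (a b : ℝ) : Prop :=
  ∃ V : A → Fin q → ℝ, (∀ i j, ∑ o, L o i * V o j = a * ((if i = j then 1 else 0) - 1 / q)) ∧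
    (∑ o, ∑ j, mass (L o) * V o j ^ 2) ≤ ((q : ℝ) - 1) * b

lemma est_zero (L : A → Fin q → ℝ) : Est L 0 0 :=
  ⟨0, fun i j => by simp, by simp⟩

/-- Cauchy-Schwarz lower bound. -/
theorem est_le (hq : 2 ≤ q) {L : A → Fin q → ℝ} (hL : Good L) {a b : ℝ} (h : Est L a b) :
    a ^ 2 ≤ chF sV L * b := by
  obtain ⟨V, hV, hB'⟩ := h
  have h0 := q_pos hq
  have h1 := qm1_pos hq
  have hsum : ∑ p : A × Fin q, (L p.1 p.2 - mass (L p.1) / q) * V p.1 p.2
      = ((q : ℝ) - 1) * a := by
    rw [Fintype.sum_prod_type, Finset.sum_comm]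
    have : ∀ j, ∑ o, (L o j - mass (L o) / q) * V o j = a * (1 - 1 / q) := by
      intro j
      have e : ∀ o, (L o j - mass (L o) / q) * V o j
          = L o j * V o j - (∑ i, L o i * V o j) / q := by
        intro o; rw [← Finset.sum_mul]; simp only [mass]; ring
      simp only [e, Finset.sum_sub_distrib, ← Finset.sum_div]
      rw [Finset.sum_comm]
      simp only [hV, ← Finset.mul_sum, Finset.sum_sub_distrib, Finset.sum_ite_eq',
        Finset.mem_univ, if_true, Finset.sum_const, Finset.card_univ, Fintype.card_fin,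
        nsmul_eq_mul]
      field_simp
      ring
    simp only [this, Finset.sum_const, Finset.card_univ, Fintype.card_fin, nsmul_eq_mul]
    field_simp
  have hcs := Finset.sum_sq_le_sum_mul_sum_of_sq_eq_mul (Finset.univ : Finset (A × Fin q))
    (r := fun p => (L p.1 p.2 - mass (L p.1) / q) * V p.1 p.2)
    (f := fun p => (L p.1 p.2 - mass (L p.1) / q) ^ 2 / mass (L p.1))
    (g := fun p => mass (L p.1) * V p.1 p.2 ^ 2)
    (fun p _ => div_nonneg (sq_nonneg _) (mass_nonneg (hL.nonneg p.1)))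
    (fun p _ => mul_nonneg (mass_nonneg (hL.nonneg p.1)) (sq_nonneg _))
    (fun p _ => by
      rcases (mass_nonneg (hL.nonneg p.1)).eq_or_lt with h | h
      · simp [← h, eq_zero_of_mass (hL.nonneg p.1) h.symm]
      · field_simp)
  rw [hsum, Fintype.sum_prod_type, two_chX hq hL, Fintype.sum_prod_type] at hcs
  have h2 := mul_le_mul_of_nonneg_left hB'
    (mul_nonneg h1.le (chF_mem hq hL).1.1)
  refine le_of_mul_le_mul_left ?_ (pow_pos h1 2)
  nlinarith [hcs.trans h2]

/-- The posterior itself is an estimator with signal and power equal to X. -/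
theorem est_self (hq : 2 ≤ q) {L : A → Fin q → ℝ} (hL : Good L) :
    Est L (chF sV L) (chF sV L) := by
  refine ⟨fun o j => L o j / mass (L o) - 1 / q, ?_, ?_⟩
  · have h0 := q_pos hq
    have h1 := qm1_pos hq
    set M : Fin q → Fin q → ℝ := fun i j => ∑ o, L o i * (L o j / mass (L o) - 1 / q) with hM
    have hp : ∀ (p : Equiv.Perm (Fin q)) i j, M (p i) (p j) = M i j := by
      intro p i j
      have := hL.sym (fun x => x i * (x j / mass x - 1 / q)) p
      simpa only [mass_perm] using this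
    have hrow : ∀ i, ∑ j, M i j = 0 := by
      intro i
      simp only [hM]
      rw [Finset.sum_comm]
      refine Finset.sum_eq_zero fun o _ => ?_
      rcases (mass_nonneg (hL.nonneg o)).eq_or_lt with h | h
      · simp [eq_zero_of_mass (hL.nonneg o) h.symm]
      · rw [← Finset.mul_sum, Finset.sum_sub_distrib, ← Finset.sum_div, Finset.sum_const,
          Finset.card_univ, Fintype.card_fin, nsmul_eq_mul]
        rw [show ∑ j, L o j = mass (L o) from rfl, div_self h.ne', mul_div_cancel₀ _ h0.ne']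
        simp
    have htr : ∑ i, M i i = ((q : ℝ) - 1) * chF sV L := by
      rw [← two_chX hq hL]
      simp only [hM]
      rw [Finset.sum_comm]
      refine Finset.sum_congr rfl fun o _ => ?_
      rcases (mass_nonneg (hL.nonneg o)).eq_or_lt with h | h
      · simp [← h, eq_zero_of_mass (hL.nonneg o) h.symm]
      · have e : ∀ j, (L o j - mass (L o) / q) ^ 2 / mass (L o)
            = L o j * (L o j / mass (L o) - 1 / q)
              - (L o j / q - mass (L o) / (q : ℝ) ^ 2) := fun j => by field_simp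
        have e3 : ∑ j, (L o j / q - mass (L o) / (q : ℝ) ^ 2) = 0 := by
          rw [Finset.sum_sub_distrib, ← Finset.sum_div, Finset.sum_const, Finset.card_univ,
            Fintype.card_fin, nsmul_eq_mul, show ∑ j, L o j = mass (L o) from rfl]
          field_simp
          ring
        rw [Finset.sum_congr rfl (fun j _ => e j), Finset.sum_sub_distrib, e3, sub_zero]
    intro i j
    show M i j = _
    have hd : ∀ a, M a a = M i i := fun a => by
      have := hp (Equiv.swap a i) i i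
      simpa using this
    have hii : M i i = chF sV L * (1 - 1 / q) := by
      rw [Finset.sum_congr rfl (fun a _ => hd a), Finset.sum_const, Finset.card_univ,
        Fintype.card_fin, nsmul_eq_mul] at htr
      field_simp
      linarith
    rcases eq_or_ne i j with rfl | hij
    · simp [hii]
    · have ho : ∀ b ∈ univ.erase i, M i b = M i j := fun b hb => by
        have hbi := Finset.ne_of_mem_erase hb
        have := hp (Equiv.swap b j) i b
        rw [Equiv.swap_apply_of_ne_of_ne hbi.symm hij, Equiv.swap_apply_left] at this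
        exact this.symm
      have h := hrow i
      rw [← Finset.add_sum_erase _ _ (Finset.mem_univ i), Finset.sum_congr rfl ho,
        Finset.sum_const, Finset.card_erase_of_mem (Finset.mem_univ i), Finset.card_univ,
        Fintype.card_fin, nsmul_eq_mul, Nat.cast_sub (by omega), Nat.cast_one, hii] at h
      rw [if_neg hij]
      have e : ((q : ℝ) - 1) * (M i j + chF sV L / q) = 0 := by
        rw [← h]; field_simp; ring
      rcases mul_eq_zero.1 e with e | e
      · linarith
      · linear_combination e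
  · refine le_of_eq ?_
    rw [← two_chX hq hL]
    refine Finset.sum_congr rfl fun o _ => Finset.sum_congr rfl fun j _ => ?_
    rcases (mass_nonneg (hL.nonneg o)).eq_or_lt with h | h
    · simp [← h, eq_zero_of_mass (hL.nonneg o) h.symm]
    · field_simp

lemma sum_power {L : A → Fin q → ℝ} (V : A → Fin q → ℝ) :
    ∑ o, ∑ j, mass (L o) * V o j ^ 2 = ∑ j, ∑ i, ∑ o, L o i * V o j ^ 2 := by
  rw [Finset.sum_comm]
  refine Finset.sum_congr rfl fun j _ => ?_
  rw [Finset.sum_comm]
  exact Finset.sum_congr rfl fun o _ => Finset.sum_mul _ _ _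

/-- Estimators add up over independent observations. -/
theorem est_prod (hq : 2 ≤ q) {L : A → Fin q → ℝ} {M : B → Fin q → ℝ} (hL : Good L)
    (hM : Good M) {a b a' b' : ℝ} (h : Est L a b) (h' : Est M a' b') :
    Est (prodL L M) (a + a') (b + b' + 2 * a * a') := by
  obtain ⟨V, hV, hB1⟩ := h
  obtain ⟨W, hW, hB2⟩ := h'
  refine ⟨fun p j => V p.1 j + W p.2 j, ?_, ?_⟩
  · intro i j
    rw [Fintype.sum_prod_type]
    have e : ∀ o o', prodL L M (o, o') i * (V o j + W o' j)
        = (L o i * V o j) * M o' i + L o i * (M o' i * W o' j) := by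
      intro o o'; simp only [prodL]; ring
    simp only [e, Finset.sum_add_distrib, ← Finset.mul_sum, ← Finset.sum_mul, hM.col, hW, hV,
      hL.col]
    ring
  · rw [sum_power]
    rw [sum_power] at hB1 hB2
    have e : ∀ j i o o', prodL L M (o, o') i * (V o j + W o' j) ^ 2
        = (L o i * V o j ^ 2) * M o' i + (2 * (L o i * V o j)) * (M o' i * W o' j)
          + L o i * (M o' i * W o' j ^ 2) := fun j i o o' => by simp only [prodL]; ring
    simp only [Fintype.sum_prod_type, e, Finset.sum_add_distrib, ← Finset.mul_sum,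
      ← Finset.sum_mul, hM.col, hL.col, mul_one, one_mul, hV, hW]
    have hc : ∑ j : Fin q, ∑ i : Fin q, 2 * (a * ((if i = j then 1 else 0) - 1 / q))
        * (a' * ((if i = j then 1 else 0) - 1 / q)) = ((q : ℝ) - 1) * (2 * a * a') := by
      have h0 := q_pos hq
      have e2 : ∀ i j : Fin q, 2 * (a * ((if i = j then 1 else 0) - 1 / q))
          * (a' * ((if i = j then 1 else 0) - 1 / q))
          = 2 * a * a' * ((if i = j then 1 - 2 / (q : ℝ) else 0) + 1 / (q : ℝ) ^ 2) := fun i j => by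
        split_ifs <;> ring
      simp only [e2, ← Finset.mul_sum, Finset.sum_add_distrib, Finset.sum_ite_eq',
        Finset.mem_univ, if_true, Finset.sum_const, Finset.card_univ, Fintype.card_fin,
        nsmul_eq_mul]
      field_simp
      ring
    rw [mul_add, mul_add]
    linarith

/-- Data processing. -/
lemma chX_prod_ge_left (hq : 2 ≤ q) {L : A → Fin q → ℝ} {M : B → Fin q → ℝ} (hL : Good L)
    (hM : Good M) : chF sV L ≤ chF sV (prodL L M) := by
  have := est_le hq (hL.prod hM) (est_prod hq hL hM (est_self hq hL) (est_zero M))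
  simp only [add_zero, mul_zero] at this
  rcases (chF_mem hq hL).1.1.eq_or_lt with h | h
  · linarith [(chF_mem hq (hL.prod hM)).1.1]
  · nlinarith

end Vale.Agent.P154.Q
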