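import Mathlib
import Vale.Agent.P154.Model

namespace Vale.Agent.P154.Q

/-- Spin configurations of the vertices at a given depth of a tree, with `q` spins. -/
def Obs (q : ℕ) : Tree → ℕ → Type
  | _, 0 => Fin q
  | .nil, _ + 1 => PUnit
  | .cons c r, n + 1 => Obs q c n × Obs q r (n + 1)

/-- Finiteness of the configuration space. -/
def obsFintype (q : ℕ) : (t : Tree) → (n : ℕ) → Fintype (Obs q t n)
  | .nil, 0 => inferInstanceAs (Fintype (Fin q))
  | .cons _ _, 0 => inferInstanceAs (Fintype (Fin q))
  | .nil, _ + 1 => inferInstanceAs (Fintype PUnit)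
  | .cons c r, n + 1 => @instFintypeProd _ _ (obsFintype q c n) (obsFintype q r (n + 1))

noncomputable instance instFintypeObs (q : ℕ) (t : Tree) (n : ℕ) : Fintype (Obs q t n) :=
  obsFintype q t n

/-- The `q`-state Potts channel. -/
noncomputable def potts {q : ℕ} (l : ℝ) (i j : Fin q) : ℝ :=
  l * (if i = j then 1 else 0) + (1 - l) / q

/-- The probability of a configuration at the given depth, given the root spin. -/
noncomputable def lik (q : ℕ) (l : ℝ) : (t : Tree) → (n : ℕ) → Obs q t n → Fin q → ℝ
  | .nil, 0, o => fun i => if (show Fin q from o).val = i.val then 1 else 0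
  | .cons _ _, 0, o => fun i => if (show Fin q from o).val = i.val then 1 else 0
  | .nil, _ + 1, _ => fun _ => 1
  | .cons c r, n + 1, o => fun i =>
      (∑ j, potts l i j * lik q l c n o.1 j) * lik q l r (n + 1) o.2 i

/-- Expected total-variation distance of the root posterior from the uniform law, for a given
tree observed at depth `n`. -/
noncomputable def aTree (q : ℕ) (l : ℝ) (t : Tree) (n : ℕ) : ℝ :=
  ∑ o : Obs q t n, ((∑ k, lik q l t n o k) / q) *
    ((1 / 2) * ∑ i, |lik q l t n o i / (∑ k, lik q l t n o k) - 1 / q|)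

/-- The quantity a_n on the d-ary tree. -/
noncomputable def aReg (q : ℕ) (l : ℝ) (d n : ℕ) : ℝ := aTree q l (fullTree d n) n

/-- The quantity a_n on the Poisson(d) Galton-Watson tree. -/
noncomputable def aGW (q : ℕ) (l d : ℝ) (n : ℕ) : ℝ := ∑' t : Tree, gwProb d n t * aTree q l t n

end Vale.Agent.P154.Q
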