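import Mathlib
import Vale.Agent.P154.Q.Channel
import Vale.Agent.P154.Q.Model
import Vale.Agent.P154.GaltonWatson

namespace Vale.Agent.P154.Q

open Finset

variable {q : ℕ}

/-- Everything the tree recursion needs. -/
structure Data (q : ℕ) where
  two : 2 ≤ q
  qf : (Fin q → ℝ) → ℝ
  κ : ℝ
  κ_pos : 0 < κ
  qf_bd : ∀ x : Fin q → ℝ, (∀ i, 0 ≤ x i) → κ * sV x ≤ qf x ∧ qf x ≤ mass x
  pair : ∀ x y : Fin q → ℝ, (∀ i, 0 ≤ x i) → (∀ i, 0 ≤ y i) →
    (q : ℝ) * orbAvg sV x y ≤ sV x * mass y + mass x * sV y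
      + (hB x - sV x) * qf y + qf x * (hB y - sV y)
  edgeCert : EdgeCert q

theorem exists_data (hq : 2 ≤ q) (hE : EdgeCert q) (hP : PairCert q) : Nonempty (Data q) := by
  obtain ⟨qf, κ, hκ, h1, h2⟩ := hP
  exact ⟨⟨hq, qf, κ, hκ, h1, h2, hE⟩⟩

variable (D : Data q) {l : ℝ}

lemma edge_eq_sum (hq : 2 ≤ q) (l : ℝ) (x : Fin q → ℝ) (i : Fin q) :
    ∑ j, potts l i j * x j = edge l x i := by
  have := q_pos hq
  simp only [potts, edge, mass, add_mul, Finset.sum_add_distrib, mul_assoc, ← Finset.mul_sum,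
    ite_mul, one_mul, zero_mul, Finset.sum_ite_eq, Finset.mem_univ, if_true]
  ring

lemma good_vertex : Good (q := q) (A := Fin q) (fun o i => if o.val = i.val then (1 : ℝ) else 0) where
  nonneg o i := by split_ifs <;> norm_num
  col i := by simp [← Fin.ext_iff]
  sym f p := by
    refine Fintype.sum_equiv p.symm _ _ fun o => ?_
    congr 1; funext i
    simp only [← Fin.ext_iff, Equiv.symm_apply_eq]

lemma good_unit : Good (q := q) (A := PUnit) (fun _ _ => (1 : ℝ) : PUnit → Fin q → ℝ) where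
  nonneg _ _ := zero_le_one
  col _ := by simp
  sym f p := rfl

lemma lik_cons (hq : 2 ≤ q) (l : ℝ) (c r : Tree) (n : ℕ) :
    lik q l (.cons c r) (n + 1)
      = prodL (fun o => edge l (lik q l c n o)) (lik q l r (n + 1)) := by
  funext o i
  exact congrArg (· * lik q l r (n + 1) o.2 i) (edge_eq_sum hq l (lik q l c n o.1) i)

lemma good_lik (hq : 2 ≤ q) (h0 : 0 ≤ l) (h1 : l ≤ 1) :
    ∀ (t : Tree) (n : ℕ), Good (lik q l t n)
  | .nil, 0 => good_vertex
  | .cons _ _, 0 => good_vertex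
  | .nil, _ + 1 => good_unit
  | .cons c r, n + 1 => by
    rw [lik_cons hq]
    exact ((good_lik hq h0 h1 c n).child hq h0 h1).prod (good_lik hq h0 h1 r (n + 1))

/-- A functional of the root channel. -/
noncomputable def tF (f : (Fin q → ℝ) → ℝ) (l : ℝ) (t : Tree) (n : ℕ) : ℝ :=
  chF f (lik q l t n)

/-- A functional of the channel of a child seen through its edge. -/
noncomputable def eF (f : (Fin q → ℝ) → ℝ) (l : ℝ) (n : ℕ) (c : Tree) : ℝ :=
  chF f (fun o => edge l (lik q l c n o))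

lemma sV_vertex (hq : 2 ≤ q) (o : Fin q) :
    sV (fun i : Fin q => if o.val = i.val then (1 : ℝ) else 0) = 1 := by
  have := qm1_pos hq
  simp only [sV, mass, ← Fin.ext_iff, ite_pow, one_pow, zero_pow two_ne_zero,
    Finset.sum_ite_eq, Finset.mem_univ, if_true]
  field_simp

lemma hB_vertex (o : Fin q) :
    hB (fun i : Fin q => if o.val = i.val then (1 : ℝ) else 0) = 1 := by
  have : ∀ i : Fin q, ∑ j ∈ univ.erase i,
      Real.sqrt ((if o.val = i.val then (1 : ℝ) else 0) * (if o.val = j.val then (1 : ℝ) else 0))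
      = 0 := by
    intro i
    refine Finset.sum_eq_zero fun j hj => ?_
    have hne := Finset.ne_of_mem_erase hj
    by_cases hi : o.val = i.val
    · have : ¬ o.val = j.val := fun e => hne (Fin.ext (e.symm.trans hi))
      simp [this]
    · simp [hi]
  simp only [hB, this]
  simp [mass, ← Fin.ext_iff]

lemma tF_zero (hq : 2 ≤ q) (f : (Fin q → ℝ) → ℝ)
    (hf : ∀ o : Fin q, f (fun i => if o.val = i.val then (1 : ℝ) else 0) = 1) (l : ℝ) (t : Tree) :
    tF f l t 0 = 1 := by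
  have h0 := q_pos hq
  have key : chF (A := Fin q) f (fun o i => if o.val = i.val then (1 : ℝ) else 0) = 1 := by
    simp only [chF, hf, Finset.sum_const, Finset.card_univ, Fintype.card_fin, nsmul_eq_mul,
      mul_one, div_self h0.ne']
  cases t <;> exact key

lemma tX_zero (hq : 2 ≤ q) (l : ℝ) (t : Tree) : tF (q := q) sV l t 0 = 1 :=
  tF_zero hq sV (sV_vertex hq) l t

lemma tH_zero (hq : 2 ≤ q) (l : ℝ) (t : Tree) : tF (q := q) hB l t 0 = 1 :=
  tF_zero hq hB hB_vertex l t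

lemma tX_nil (hq : 2 ≤ q) (l : ℝ) (n : ℕ) : tF (q := q) sV l .nil (n + 1) = 0 := by
  have h0 := q_pos hq
  show chF (A := PUnit) sV (fun _ _ => (1 : ℝ) : PUnit → Fin q → ℝ) = 0
  simp [chF, sV, mass, h0.ne']

lemma tH_nil (hq : 2 ≤ q) (l : ℝ) (n : ℕ) : tF (q := q) hB l .nil (n + 1) = 0 := by
  have h0 := q_pos hq
  have h1 := qm1_pos hq
  show chF (A := PUnit) hB (fun _ _ => (1 : ℝ) : PUnit → Fin q → ℝ) = 0
  simp only [chF, hB, mass, mul_one, Real.sqrt_one, Finset.sum_const, Finset.card_univ,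
    Fintype.card_fin, Finset.card_erase_of_mem (Finset.mem_univ _), nsmul_eq_mul,
    Nat.cast_sub (show 1 ≤ q by omega), Nat.cast_one, Fintype.card_punit]
  field_simp
  ring

lemma tF_mem (h0 : 0 ≤ l) (h1 : l ≤ 1) (t : Tree) (n : ℕ) :
    (0 ≤ tF (q := q) sV l t n ∧ tF (q := q) sV l t n ≤ 1) ∧
      (0 ≤ tF (q := q) hB l t n ∧ tF (q := q) hB l t n ≤ 1) ∧
      (0 ≤ tF D.qf l t n ∧ tF D.qf l t n ≤ 1) := by
  have hG := good_lik D.two h0 h1 t n
  refine ⟨(chF_mem D.two hG).1, (chF_mem D.two hG).2, ?_, ?_⟩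
  · exact chF_nonneg hG fun x hx =>
      (mul_nonneg D.κ_pos.le (sV_nonneg D.two hx)).trans (D.qf_bd x hx).1
  · exact chF_le_one D.two hG fun x hx => (D.qf_bd x hx).2

lemma eF_mem (h0 : 0 ≤ l) (h1 : l ≤ 1) (n : ℕ) (c : Tree) :
    (0 ≤ eF (q := q) sV l n c ∧ eF (q := q) sV l n c ≤ 1) ∧
      (0 ≤ eF (q := q) hB l n c ∧ eF (q := q) hB l n c ≤ 1) ∧
      (0 ≤ eF D.qf l n c ∧ eF D.qf l n c ≤ 1) := by
  have hG := (good_lik D.two h0 h1 c n).child D.two h0 h1
  refine ⟨(chF_mem D.two hG).1, (chF_mem D.two hG).2, ?_, ?_⟩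
  · exact chF_nonneg hG fun x hx =>
      (mul_nonneg D.κ_pos.le (sV_nonneg D.two hx)).trans (D.qf_bd x hx).1
  · exact chF_le_one D.two hG fun x hx => (D.qf_bd x hx).2

include D in
lemma eX_eq (h0 : 0 ≤ l) (h1 : l ≤ 1) (n : ℕ) (c : Tree) :
    eF (q := q) sV l n c = l ^ 2 * tF (q := q) sV l c n :=
  chX_child D.two (good_lik D.two h0 h1 c n) l

include D in
lemma eH_le (h0 : 0 ≤ l) (h1 : l ≤ 1) (n : ℕ) (c : Tree) :
    eF (q := q) hB l n c ≤ l ^ 2 * tF (q := q) sV l c n
      + l ^ 3 * (tF (q := q) hB l c n - tF (q := q) sV l c n) :=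
  chH_child D.edgeCert (good_lik D.two h0 h1 c n) h0 h1

lemma eQ_ge (h0 : 0 ≤ l) (h1 : l ≤ 1) (n : ℕ) (c : Tree) :
    D.κ * eF (q := q) sV l n c ≤ eF D.qf l n c := by
  have hG := (good_lik D.two h0 h1 c n).child D.two h0 h1
  simp only [eF, chF, mul_div, Finset.mul_sum]
  exact div_le_div_of_nonneg_right (Finset.sum_le_sum fun o _ => (D.qf_bd _ (hG.nonneg o)).1)
    (Nat.cast_nonneg q)

lemma tF_cons_nil (hq : 2 ≤ q) (f : (Fin q → ℝ) → ℝ) (l : ℝ) (c : Tree) (n : ℕ) :
    tF f l (.cons c .nil) (n + 1) = eF f l n c := by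
  unfold tF eF
  rw [lik_cons hq]
  exact chF_prod_unit f _ _ fun _ _ => rfl

lemma tX_cons (h0 : 0 ≤ l) (h1 : l ≤ 1) (c r : Tree) (n : ℕ) :
    tF (q := q) sV l (.cons c r) (n + 1) + eF D.qf l n c * tF (q := q) sV l r (n + 1)
        + eF (q := q) sV l n c * tF D.qf l r (n + 1)
      ≤ eF (q := q) sV l n c + tF (q := q) sV l r (n + 1)
        + eF D.qf l n c * tF (q := q) hB l r (n + 1)
        + eF (q := q) hB l n c * tF D.qf l r (n + 1) := by
  have h := chX_prod_le D.two D.pair ((good_lik D.two h0 h1 c n).child D.two h0 h1)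
    (good_lik D.two h0 h1 r (n + 1))
  rw [← lik_cons D.two] at h
  have h' : tF (q := q) sV l (.cons c r) (n + 1)
      ≤ eF (q := q) sV l n c + tF (q := q) sV l r (n + 1)
        + (eF (q := q) hB l n c - eF (q := q) sV l n c) * tF D.qf l r (n + 1)
        + eF D.qf l n c * (tF (q := q) hB l r (n + 1) - tF (q := q) sV l r (n + 1)) := h
  linear_combination h'

include D in
lemma tH_cons (h0 : 0 ≤ l) (h1 : l ≤ 1) (c r : Tree) (n : ℕ) :
    1 - tF (q := q) hB l (.cons c r) (n + 1)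
      = (1 - eF (q := q) hB l n c) * (1 - tF (q := q) hB l r (n + 1)) := by
  unfold tF eF
  rw [lik_cons D.two]
  exact chH_prod D.two ((good_lik D.two h0 h1 c n).child D.two h0 h1)
    (good_lik D.two h0 h1 r (n + 1))

/-- The potential of a tree. -/
noncomputable def tZ (q : ℕ) (l : ℝ) (t : Tree) (n : ℕ) : ℝ :=
  max (tF (q := q) sV l t n) (tF (q := q) hB l t n)

include D in
lemma eF_le_tZ (h0 : 0 ≤ l) (h1 : l ≤ 1) (n : ℕ) (c : Tree) :
    eF (q := q) sV l n c ≤ l ^ 2 * tZ q l c n ∧ eF (q := q) hB l n c ≤ l ^ 2 * tZ q l c n := by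
  refine ⟨(eX_eq D h0 h1 n c).le.trans
    (mul_le_mul_of_nonneg_left (le_max_left _ _) (sq_nonneg l)), ?_⟩
  refine (eH_le D h0 h1 n c).trans ?_
  have h23 : 0 ≤ l ^ 2 - l ^ 3 := sub_nonneg.2 (pow_le_pow_of_le_one h0 h1 (by norm_num))
  have a := mul_le_mul_of_nonneg_left (le_max_left (tF (q := q) sV l c n) (tF (q := q) hB l c n)) h23
  have b := mul_le_mul_of_nonneg_left (le_max_right (tF (q := q) sV l c n) (tF (q := q) hB l c n))
    (pow_nonneg h0 3)
  unfold tZ
  linarith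

include D in
lemma tZ_le_level (h0 : 0 ≤ l) (h1 : l ≤ 1) :
    ∀ (t : Tree) (n : ℕ), tZ q l t n ≤ (levelSize t n : ℝ) * l ^ (2 * n)
  | t, 0 => by
    rw [tZ, tX_zero D.two, tH_zero D.two]
    cases t <;> simp [levelSize]
  | .nil, n + 1 => by simp [tZ, tX_nil D.two, tH_nil D.two, levelSize]
  | .cons c r, n + 1 => by
    obtain ⟨hcx, hch⟩ := eF_le_tZ D h0 h1 n c
    have hc : l ^ 2 * tZ q l c n ≤ l ^ 2 * ((levelSize c n : ℝ) * l ^ (2 * n)) :=
      mul_le_mul_of_nonneg_left (tZ_le_level h0 h1 c n) (sq_nonneg l)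
    have hr := tZ_le_level h0 h1 r (n + 1)
    have hp : l ^ (2 * (n + 1)) = l ^ 2 * l ^ (2 * n) := by rw [← pow_add]; ring_nf
    have hm := tF_mem D h0 h1 r (n + 1)
    have he := eF_mem D h0 h1 n c
    have hx := tX_cons D h0 h1 c r n
    have hh := tH_cons D h0 h1 c r n
    have r1 := le_max_left (tF (q := q) sV l r (n + 1)) (tF (q := q) hB l r (n + 1))
    have r2 := le_max_right (tF (q := q) sV l r (n + 1)) (tF (q := q) hB l r (n + 1))
    simp only [levelSize]
    push_cast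
    rw [hp] at hr ⊢
    refine max_le ?_ ?_
    · have a := mul_le_mul_of_nonneg_left r2 he.2.2.1
      have b := mul_le_mul_of_nonneg_left r1 (sub_nonneg.2 he.2.2.2)
      have a' := mul_le_mul_of_nonneg_left hch hm.2.2.1
      have b' := mul_le_mul_of_nonneg_left hcx (sub_nonneg.2 hm.2.2.2)
      unfold tZ at *
      linarith
    · have := mul_nonneg he.2.1.1 hm.2.1.1
      unfold tZ at *
      linarith

lemma est_tree (h0 : 0 ≤ l) (h1 : l ≤ 1) (hq : 2 ≤ q) (n : ℕ) :
    ∀ t, Est (lik q l t (n + 1)) (kidsSum (eF (q := q) sV l n) t)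
      (kidsSum (eF (q := q) sV l n) t + kidsPairs (eF (q := q) sV l n) t)
  | .nil => by simpa [kidsSum, kidsPairs] using est_zero (lik q l Tree.nil (n + 1))
  | .cons c r => by
    have h := est_prod hq ((good_lik hq h0 h1 c n).child hq h0 h1) (good_lik hq h0 h1 r (n + 1))
      (est_self hq ((good_lik hq h0 h1 c n).child hq h0 h1)) (est_tree h0 h1 hq n r)
    rw [← lik_cons hq] at h
    simp only [kidsSum, kidsPairs]
    rw [show eF (q := q) sV l n c + kidsSum (eF (q := q) sV l n) r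
          + (2 * eF (q := q) sV l n c * kidsSum (eF (q := q) sV l n) r
            + kidsPairs (eF (q := q) sV l n) r)
        = eF (q := q) sV l n c + (kidsSum (eF (q := q) sV l n) r
            + kidsPairs (eF (q := q) sV l n) r)
          + 2 * eF (q := q) sV l n c * kidsSum (eF (q := q) sV l n) r by ring]
    exact h

include D in
lemma tX_succ_ge (h0 : 0 ≤ l) (h1 : l ≤ 1) (n : ℕ) (t : Tree) (c : ℝ) :
    2 * c * kidsSum (eF (q := q) sV l n) t ≤ tF (q := q) sV l t (n + 1)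
      + c ^ 2 * (kidsSum (eF (q := q) sV l n) t + kidsPairs (eF (q := q) sV l n) t) := by
  have h : kidsSum (eF (q := q) sV l n) t ^ 2 ≤ tF (q := q) sV l t (n + 1)
      * (kidsSum (eF (q := q) sV l n) t + kidsPairs (eF (q := q) sV l n) t) :=
    est_le D.two (good_lik D.two h0 h1 t (n + 1)) (est_tree h0 h1 D.two n t)
  have hs : ∀ c, 0 ≤ eF (q := q) sV l n c := fun c => (eF_mem D h0 h1 n c).1.1
  have hA := kidsSum_nonneg hs t
  have hP := kidsPairs_nonneg hs t
  have hX := (tF_mem D h0 h1 t (n + 1)).1.1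
  set A := kidsSum (eF (q := q) sV l n) t
  set P := kidsPairs (eF (q := q) sV l n) t
  rcases (add_nonneg hA hP).eq_or_lt with hB' | hB'
  · have : A = 0 := by linarith
    rw [this]; nlinarith [sq_nonneg c]
  · refine le_of_mul_le_mul_right ?_ hB'
    nlinarith [sq_nonneg (A - c * (A + P))]

lemma aTree_eq (hq : 2 ≤ q) (h0 : 0 ≤ l) (h1 : l ≤ 1) (t : Tree) (n : ℕ) :
    aTree q l t n
      = (∑ o, ∑ i, |lik q l t n o i - mass (lik q l t n o) / q|) / (2 * q) := by
  have hq0 := q_pos hq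
  rw [Finset.sum_div]
  unfold aTree
  refine Finset.sum_congr rfl fun o _ => ?_
  rw [show ∑ k, lik q l t n o k = mass (lik q l t n o) from rfl]
  rcases (mass_nonneg ((good_lik hq h0 h1 t n).nonneg o)).eq_or_lt with h | h
  · simp [← h, eq_zero_of_mass ((good_lik hq h0 h1 t n).nonneg o) h.symm]
  · have : ∀ i, |lik q l t n o i / mass (lik q l t n o) - 1 / q|
        = |lik q l t n o i - mass (lik q l t n o) / q| / mass (lik q l t n o) := by
      intro i
      conv_rhs => rw [← abs_of_pos h, ← abs_div, abs_of_pos h]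
      congr 1; field_simp
    simp only [this, ← Finset.sum_div]
    field_simp

include D in
lemma aTree_le (h0 : 0 ≤ l) (h1 : l ≤ 1) (t : Tree) (n : ℕ) {η : ℝ} (hη : 0 < η) :
    aTree q l t n ≤ (q : ℝ) * η + tF (q := q) sV l t n / (8 * η) := by
  have hG := good_lik D.two h0 h1 t n
  have hq0 := q_pos D.two
  rw [aTree_eq D.two h0 h1]
  have key : ∑ o, ∑ i, |lik q l t n o i - mass (lik q l t n o) / q|
      ≤ ∑ o, ∑ i, (η * mass (lik q l t n o)
        + (lik q l t n o i - mass (lik q l t n o) / q) ^ 2 / mass (lik q l t n o) / (4 * η)) := by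
    refine Finset.sum_le_sum fun o _ => Finset.sum_le_sum fun i _ => ?_
    rcases (mass_nonneg (hG.nonneg o)).eq_or_lt with h | h
    · simp [← h, eq_zero_of_mass (hG.nonneg o) h.symm]
    · exact abs_ratio h hη
  simp only [Finset.sum_add_distrib] at key
  have e4 : ∑ o, ∑ i,
      (lik q l t n o i - mass (lik q l t n o) / q) ^ 2 / mass (lik q l t n o) / (4 * η)
      = ((q : ℝ) - 1) * chF sV (lik q l t n) / (4 * η) := by
    rw [← two_chX D.two hG, Finset.sum_div]
    exact Finset.sum_congr rfl fun o _ => (Finset.sum_div _ _ _).symm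
  have e5 : ∑ o, ∑ _i : Fin q, η * mass (lik q l t n o) = (q : ℝ) * (η * q) := by
    simp only [Finset.sum_const, Finset.card_univ, Fintype.card_fin, nsmul_eq_mul,
      ← Finset.mul_sum, hG.sum_mass]
  rw [e4, e5] at key
  rw [div_le_iff₀ (by positivity)]
  refine key.trans ?_
  have hX := (chF_mem D.two hG).1.1
  unfold tF
  rw [add_mul]
  have : ((q : ℝ) - 1) * chF sV (lik q l t n) / (4 * η)
      ≤ chF sV (lik q l t n) / (8 * η) * (2 * q) := by
    rw [show chF sV (lik q l t n) / (8 * η) * (2 * q)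
      = (q : ℝ) * chF sV (lik q l t n) / (4 * η) by field_simp; ring]
    gcongr
    linarith
  nlinarith [mul_pos (mul_pos hq0 hq0) hη]

include D in
lemma tX_le_aTree (h0 : 0 ≤ l) (h1 : l ≤ 1) (t : Tree) (n : ℕ) :
    tF (q := q) sV l t n ≤ 2 * q * aTree q l t n := by
  have hG := good_lik D.two h0 h1 t n
  have hq0 := q_pos D.two
  rw [aTree_eq D.two h0 h1]
  have key : ∑ o, ∑ i, (lik q l t n o i - mass (lik q l t n o) / q) ^ 2 / mass (lik q l t n o)
      ≤ ∑ o, ∑ i, |lik q l t n o i - mass (lik q l t n o) / q| := by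
    refine Finset.sum_le_sum fun o _ => Finset.sum_le_sum fun i _ => ?_
    rcases (mass_nonneg (hG.nonneg o)).eq_or_lt with h | h
    · simp [← h, eq_zero_of_mass (hG.nonneg o) h.symm]
    · have hle : |lik q l t n o i - mass (lik q l t n o) / q| ≤ mass (lik q l t n o) := by
        have h2 : 0 ≤ mass (lik q l t n o) / q := div_nonneg h.le hq0.le
        have h3 : mass (lik q l t n o) / q ≤ mass (lik q l t n o) :=
          div_le_self h.le (by have := qm1_pos D.two; linarith)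
        rw [abs_le]
        constructor <;> linarith [hG.nonneg o i, le_mass (hG.nonneg o) i]
      rw [div_le_iff₀ h, ← sq_abs, sq]
      exact mul_le_mul_of_nonneg_left hle (abs_nonneg _)
  rw [two_chX D.two hG] at key
  rw [mul_div_cancel₀ _ (by positivity)]
  refine le_trans ?_ key
  have : (1 : ℝ) ≤ (q : ℝ) - 1 := by
    have : (2 : ℝ) ≤ q := by exact_mod_cast D.two
    linarith
  exact le_mul_of_one_le_left (chF_mem D.two hG).1.1 this

include D in
lemma aTree_nonneg (h0 : 0 ≤ l) (h1 : l ≤ 1) (t : Tree) (n : ℕ) : 0 ≤ aTree q l t n :=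
  nonneg_of_mul_nonneg_right ((tF_mem D h0 h1 t n).1.1.trans (tX_le_aTree D h0 h1 t n))
    (mul_pos two_pos (q_pos D.two))

include D in
lemma aTree_le_two (h0 : 0 ≤ l) (h1 : l ≤ 1) (t : Tree) (n : ℕ) :
    aTree q l t n ≤ (q : ℝ) + 1 := by
  have := aTree_le D h0 h1 t n (η := 1) one_pos
  have := (tF_mem D h0 h1 t n).1.2
  linarith

end Vale.Agent.P154.Q
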