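import Mathlib
import Vale.Agent.P154.Q.Family
import Vale.Agent.P154.Q.TreeBound

namespace Vale.Agent.P154.Q

open Filter Topology

variable {q : ℕ} (D : Data q) {l : ℝ}

/-- The tree whose root has `k` copies of `c` below it. -/
def copies (c : Tree) (k : ℕ) : Tree := (Tree.cons c)^[k] .nil

lemma copies_succ (c : Tree) (k : ℕ) : copies c (k + 1) = .cons c (copies c k) :=
  Function.iterate_succ_apply' _ _ _

lemma fam_reg (h0 : 0 ≤ l) (h1 : l ≤ 1) (c : Tree) (n : ℕ) :
    Fam (eF (q := q) sV l n c) (eF (q := q) hB l n c) (eF D.qf l n c)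
      (fun k => tF (q := q) sV l (copies c k) (n + 1))
      (fun k => tF (q := q) hB l (copies c k) (n + 1))
      (fun k => tF D.qf l (copies c k) (n + 1)) where
  x_zero := tX_nil D.two l n
  h_zero := tH_nil D.two l n
  x_one := tF_cons_nil D.two sV l c n
  g_one := tF_cons_nil D.two D.qf l c n
  g_mem k := (tF_mem D h0 h1 (copies c k) (n + 1)).2.2
  eh_mem := (eF_mem D h0 h1 n c).2.1
  eq_mem := (eF_mem D h0 h1 n c).2.2
  h_succ k := by
    have h := tH_cons D h0 h1 c (copies c k) n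
    rw [← copies_succ] at h
    linarith
  h_nonneg k := (tF_mem D h0 h1 (copies c k) (n + 1)).2.1.1
  x_succ k := by
    have h := tX_cons D h0 h1 c (copies c k) n
    rw [← copies_succ] at h
    linarith

variable {d : ℕ}

lemma fullTree_succ (d n : ℕ) : fullTree d (n + 1) = copies (fullTree d n) d := rfl

/-- The two components of the potential on the complete tree. -/
noncomputable def mReg (f : (Fin q → ℝ) → ℝ) (l : ℝ) (d n : ℕ) : ℝ := tF f l (fullTree d n) n

include D in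
lemma reg_tendsto_zero (h0 : 0 ≤ l) (h1 : l ≤ 1) (hd : 2 ≤ d) (hq : (d : ℝ) * l ^ 2 ≤ 1) :
    Tendsto (fun n => max (mReg (q := q) sV l d n) (mReg (q := q) hB l d n)) atTop (𝓝 0) := by
  have hu : ∀ n, eF (q := q) sV l n (fullTree d n)
        ≤ l ^ 2 * max (mReg (q := q) sV l d n) (mReg (q := q) hB l d n) ∧
      eF (q := q) hB l n (fullTree d n)
        ≤ l ^ 2 * max (mReg (q := q) sV l d n) (mReg (q := q) hB l d n) :=
    fun n => eF_le_tZ D h0 h1 n _
  have hz0 : ∀ n, 0 ≤ max (mReg (q := q) sV l d n) (mReg (q := q) hB l d n) := fun n =>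
    (tF_mem D h0 h1 _ n).1.1.trans (le_max_left _ _)
  have hu1 : ∀ n, l ^ 2 * max (mReg (q := q) sV l d n) (mReg (q := q) hB l d n) ≤ 1 := fun n =>
    mul_le_one₀ (pow_le_one₀ h0 h1) (hz0 n)
      (max_le (tF_mem D h0 h1 _ n).1.2 (tF_mem D h0 h1 _ n).2.1.2)
  have hdu : ∀ n, (d : ℝ) * (l ^ 2 * max (mReg (q := q) sV l d n) (mReg (q := q) hB l d n))
      ≤ max (mReg (q := q) sV l d n) (mReg (q := q) hB l d n) := fun n => by
    rw [← mul_assoc]
    exact mul_le_of_le_one_left (hz0 n) hq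
  obtain ⟨k, rfl⟩ : ∃ k, d = k + 2 := ⟨d - 2, by omega⟩
  rcases h0.eq_or_lt with hl | hl
  · rw [← tendsto_add_atTop_iff_nat 1]
    refine squeeze_zero (fun n => hz0 _) (fun n => ?_) tendsto_const_nhds
    have := (fam_reg D h0 h1 (fullTree (k + 2) n) n).max_le_mul (hu n).1 (hu n).2 (k + 2)
    rw [show (l : ℝ) ^ 2 = 0 by rw [← hl]; simp, zero_mul, mul_zero] at this
    simpa [mReg, fullTree_succ] using this
  refine potential_to_zero (p := 1) (a := l ^ 2) (b := 2 * D.κ * l ^ 5) one_pos (by positivity)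
    (mul_pos (mul_pos two_pos D.κ_pos) (pow_pos hl 5)) (fun n => (tF_mem D h0 h1 _ n).1.1)
    (fun n => ?_) (fun n => ?_) (fun n hn => ?_)
  · have := (fam_reg D h0 h1 (fullTree (k + 2) n) n).max_le_mul (hu n).1 (hu n).2 (k + 2)
    simp only [mReg, fullTree_succ] at *
    exact this.trans (hdu n)
  · have := (fam_reg D h0 h1 (fullTree (k + 2) n) n).h_gain (hu n).2 (hu1 n) k
    have := hdu n
    simp only [mReg, fullTree_succ, one_mul] at *
    linarith
  · have F := fam_reg D h0 h1 (fullTree (k + 2) n) n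
    have := F.max_gain (hu n).1 (hu n).2 (F.gain_two h0 D.κ_pos.le (tF_mem D h0 h1 _ n).1.1
      (eX_eq D h0 h1 n _) (eH_le D h0 h1 n _) (eQ_ge D h0 h1 n _) hn (hu n).1 (hu n).2 (hu1 n)) k
    have := hdu n
    simp only [mReg, fullTree_succ, one_mul] at *
    linarith

/-- From the second moment to total variation. -/
lemma tv_zero {a m : ℕ → ℝ} {C : ℝ} (hC : 0 < C) (hm : Tendsto m atTop (𝓝 0)) (ha : ∀ n, 0 ≤ a n)
    (h : ∀ n, ∀ η : ℝ, 0 < η → a n ≤ C * η + m n / (8 * η)) : Tendsto a atTop (𝓝 0) := by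
  rw [Metric.tendsto_atTop]
  intro ε hε
  obtain ⟨η, hη, hCη⟩ : ∃ η : ℝ, 0 < η ∧ C * η = ε / 2 :=
    ⟨ε / (2 * C), by positivity, by field_simp⟩
  obtain ⟨N, hN⟩ := Metric.tendsto_atTop.1 hm (8 * η * (ε / 2)) (by positivity)
  refine ⟨N, fun n hn => ?_⟩
  have h1 := h n η hη
  have h2 : m n / (8 * η) < ε / 2 := by
    have := hN n hn
    rw [Real.dist_eq, sub_zero] at this
    rw [div_lt_iff₀ (by positivity)]
    linarith [le_abs_self (m n)]
  rw [Real.dist_eq, sub_zero, abs_of_nonneg (ha n)]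
  linarith

include D in
theorem reg_nonreconstruction (h0 : 0 ≤ l) (h1 : l ≤ 1) (hd : 2 ≤ d)
    (hq : (d : ℝ) * l ^ 2 ≤ 1) : Tendsto (aReg q l d) atTop (𝓝 0) :=
  tv_zero (q_pos D.two) (reg_tendsto_zero D h0 h1 hd hq)
    (fun _ => aTree_nonneg D h0 h1 _ _) fun n η hη =>
      (aTree_le D h0 h1 _ n hη).trans (by gcongr; exact le_max_left _ _)

include D in
theorem reg_reconstruction (h0 : 0 ≤ l) (h1 : l ≤ 1) (hq : 1 < (d : ℝ) * l ^ 2) :
    ∃ c > 0, ∀ n, c ≤ aReg q l d n := by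
  have hq0 := q_pos D.two
  refine ⟨((d : ℝ) * l ^ 2 - 1) / ((d : ℝ) * l ^ 2) / (2 * q),
    div_pos (div_pos (by linarith) (by linarith)) (by positivity), fun n => ?_⟩
  have hstep : ∀ n, (d : ℝ) * l ^ 2 * mReg (q := q) sV l d n
      / (1 + (d : ℝ) * l ^ 2 * mReg (q := q) sV l d n) ≤ mReg (q := q) sV l d (n + 1) := by
    intro n
    have hX := (tF_mem D h0 h1 (fullTree d n) n).1.1
    set u := (d : ℝ) * l ^ 2 * mReg (q := q) sV l d n with hu
    have hu0 : 0 ≤ u := mul_nonneg (by linarith) hX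
    have h := tX_succ_ge D h0 h1 n (fullTree d (n + 1)) (1 / (1 + u))
    rw [fullTree, kidsSum_iter, kidsPairs_iter, eX_eq D h0 h1] at h
    have e : u / (1 + u) = 2 * (1 / (1 + u)) * u - (1 / (1 + u)) ^ 2 * (u + u ^ 2) := by
      have : 1 + u ≠ 0 := by linarith
      field_simp; ring
    rw [e]
    have hd0 : 0 ≤ (1 / (1 + u)) ^ 2 * ((d : ℝ) * (l ^ 2 * tF (q := q) sV l (fullTree d n) n) ^ 2) :=
      by positivity
    simp only [mReg, fullTree, hu] at *
    linarith
  have h := seq_lower (m := mReg (q := q) sV l d) hq ?_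
    (fun n => (tF_mem D h0 h1 _ n).1.1) hstep n
  · rw [div_le_iff₀ (by positivity)]
    refine h.trans ((tX_le_aTree D h0 h1 (fullTree d n) n).trans (le_of_eq ?_))
    unfold aReg; ring
  · rw [mReg, tX_zero D.two, div_le_one (by linarith)]; linarith

end Vale.Agent.P154.Q
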