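import Mathlib
import Vale.Agent.P154.Q.RegTree

namespace Vale.Agent.P154.Q

open Filter Topology ENNReal

variable {q : ℕ} (D : Data q) {d l : ℝ}

lemma lev_mono (w : Tree → ℝ≥0∞) (k : ℕ) {F G : Tree → ℝ≥0∞} (h : ∀ t, F t ≤ G t) :
    lev w k F ≤ lev w k G :=
  ENNReal.tsum_le_tsum fun t => by
    split_ifs
    · exact mul_le_mul_right (h t) _
    · exact le_rfl

lemma lev_const (w : Tree → ℝ≥0∞) (hw : ∑' t, w t = 1) (k : ℕ) (a : ℝ≥0∞) :
    lev w k (fun _ => a) = a := by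
  simpa [lev_one w hw k] using lev_mul w (fun _ => 1) k a

/-- Average over a tree of depth `n`. -/
noncomputable def av (d : ℝ) (n : ℕ) (f : Tree → ℝ) : ℝ :=
  (∑' t, wgt d n t * ENNReal.ofReal (f t)).toReal

/-- Average over the children of a root with `k` of them. -/
noncomputable def lv (d : ℝ) (n k : ℕ) (f : Tree → ℝ) : ℝ :=
  (lev (wgt d n) k (fun t => ENNReal.ofReal (f t))).toReal

lemma av_spec (hd : 0 ≤ d) (n : ℕ) {f : Tree → ℝ} (hf : ∀ t, 0 ≤ f t ∧ f t ≤ 1) :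
    ∑' t, wgt d n t * ENNReal.ofReal (f t) = ENNReal.ofReal (av d n f) ∧
      0 ≤ av d n f ∧ av d n f ≤ 1 ∧ av d n f = ∑' t, gwProb d n t * f t := by
  have hle : ∑' t, wgt d n t * ENNReal.ofReal (f t) ≤ 1 := by
    rw [← tsum_wgt hd n]
    exact ENNReal.tsum_le_tsum fun t => mul_le_of_le_one_right' (ENNReal.ofReal_le_one.2 (hf t).2)
  refine ⟨(ENNReal.ofReal_toReal (hle.trans_lt one_lt_top).ne).symm, ENNReal.toReal_nonneg,
    ENNReal.toReal_le_of_le_ofReal zero_le_one (by simpa using hle), ?_⟩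
  have hs := summable_bdd hd n (fun t => (hf t).1) (fun t => (hf t).2)
  rw [av, show ∑' t, wgt d n t * ENNReal.ofReal (f t) = _ from Ex_ofReal hd n (fun t => (hf t).1) hs,
    ENNReal.toReal_ofReal (tsum_nonneg fun t => mul_nonneg (gwProb_nonneg hd n t) (hf t).1)]

lemma lv_spec (hd : 0 ≤ d) (n k : ℕ) {f : Tree → ℝ} (hf : ∀ t, 0 ≤ f t ∧ f t ≤ 1) :
    lev (wgt d n) k (fun t => ENNReal.ofReal (f t)) = ENNReal.ofReal (lv d n k f) ∧
      0 ≤ lv d n k f ∧ lv d n k f ≤ 1 := by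
  have hle : lev (wgt d n) k (fun t => ENNReal.ofReal (f t)) ≤ 1 := by
    rw [← lev_one (wgt d n) (tsum_wgt hd n) k]
    exact lev_mono _ k fun t => ENNReal.ofReal_le_one.2 (hf t).2
  exact ⟨(ENNReal.ofReal_toReal (hle.trans_lt one_lt_top).ne).symm, ENNReal.toReal_nonneg,
    ENNReal.toReal_le_of_le_ofReal zero_le_one (by simpa using hle)⟩

lemma lv_compl (hd : 0 ≤ d) (n k : ℕ) {f : Tree → ℝ} (hf : ∀ t, 0 ≤ f t ∧ f t ≤ 1) :
    lv d n k (fun t => 1 - f t) = 1 - lv d n k f := by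
  have hg : ∀ t, 0 ≤ 1 - f t ∧ 1 - f t ≤ 1 := fun t =>
    ⟨by linarith [(hf t).2], by linarith [(hf t).1]⟩
  have h := lev_one (wgt d n) (tsum_wgt hd n) k
  rw [show (fun _ => (1 : ℝ≥0∞)) = fun t => ENNReal.ofReal (f t) + ENNReal.ofReal (1 - f t) by
      funext t; rw [← ENNReal.ofReal_add (hf t).1 (hg t).1]; simp, lev_add, (lv_spec hd n k hf).1,
    (lv_spec hd n k hg).1,
    ← ENNReal.ofReal_add (lv_spec hd n k hf).2.1 (lv_spec hd n k hg).2.1,
    ENNReal.ofReal_eq_one] at h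
  linarith

lemma av_compl (hd : 0 ≤ d) (n : ℕ) {f : Tree → ℝ} (hf : ∀ t, 0 ≤ f t ∧ f t ≤ 1) :
    av d n (fun t => 1 - f t) = 1 - av d n f := by
  have hg : ∀ t, 0 ≤ 1 - f t ∧ 1 - f t ≤ 1 := fun t =>
    ⟨by linarith [(hf t).2], by linarith [(hf t).1]⟩
  rw [(av_spec hd n hg).2.2.2, (av_spec hd n hf).2.2.2]
  simp only [mul_sub, mul_one]
  rw [Summable.tsum_sub (summable_gw hd n)
    (summable_bdd hd n (fun t => (hf t).1) (fun t => (hf t).2)), gw_total hd]

lemma fam_gw (hd : 0 ≤ d) (h0 : 0 ≤ l) (h1 : l ≤ 1) (n : ℕ) :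
    Fam (av d n (eF (q := q) sV l n)) (av d n (eF (q := q) hB l n)) (av d n (eF D.qf l n))
      (fun k => lv d n k fun t => tF (q := q) sV l t (n + 1))
      (fun k => lv d n k fun t => tF (q := q) hB l t (n + 1))
      (fun k => lv d n k fun t => tF D.qf l t (n + 1)) := by
  have mX : ∀ t, 0 ≤ tF (q := q) sV l t (n + 1) ∧ tF (q := q) sV l t (n + 1) ≤ 1 :=
    fun t => (tF_mem D h0 h1 t (n + 1)).1
  have mH : ∀ t, 0 ≤ tF (q := q) hB l t (n + 1) ∧ tF (q := q) hB l t (n + 1) ≤ 1 :=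
    fun t => (tF_mem D h0 h1 t (n + 1)).2.1
  have mQ : ∀ t, 0 ≤ tF D.qf l t (n + 1) ∧ tF D.qf l t (n + 1) ≤ 1 :=
    fun t => (tF_mem D h0 h1 t (n + 1)).2.2
  have eX := fun c => (eF_mem D h0 h1 n c).1
  have eH := fun c => (eF_mem D h0 h1 n c).2.1
  have eQ := fun c => (eF_mem D h0 h1 n c).2.2
  have one : ∀ f : (Fin q → ℝ) → ℝ, (∀ c, 0 ≤ eF f l n c ∧ eF f l n c ≤ 1) →
      lv d n 1 (fun t => tF f l t (n + 1)) = av d n (eF f l n) := by
    intro f _
    simp only [lv, av, lev_succ, lev_zero, tF_cons_nil D.two]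
  refine ⟨?_, ?_, one sV eX, one D.qf eQ, fun k => (lv_spec hd n k mQ).2,
    ⟨(av_spec hd n eH).2.1, (av_spec hd n eH).2.2.1⟩,
    ⟨(av_spec hd n eQ).2.1, (av_spec hd n eQ).2.2.1⟩, fun k => ?_,
    fun k => (lv_spec hd n k mH).2.1, fun k => ?_⟩
  · simp [lv, lev_zero, tX_nil D.two]
  · simp [lv, lev_zero, tH_nil D.two]
  · have hg : ∀ t, 0 ≤ 1 - tF (q := q) hB l t (n + 1) ∧ 1 - tF (q := q) hB l t (n + 1) ≤ 1 :=
      fun t => ⟨by linarith [(mH t).2], by linarith [(mH t).1]⟩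
    have he : ∀ c, 0 ≤ 1 - eF (q := q) hB l n c ∧ 1 - eF (q := q) hB l n c ≤ 1 :=
      fun c => ⟨by linarith [(eH c).2], by linarith [(eH c).1]⟩
    have key : lev (wgt d n) (k + 1) (fun t => ENNReal.ofReal (1 - tF (q := q) hB l t (n + 1)))
        = ENNReal.ofReal (av d n fun c => 1 - eF (q := q) hB l n c)
          * ENNReal.ofReal (lv d n k fun t => 1 - tF (q := q) hB l t (n + 1)) := by
      rw [lev_succ, ← (av_spec hd n he).1, ← ENNReal.tsum_mul_right]
      refine tsum_congr fun c => ?_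
      simp only [tH_cons D h0 h1, ENNReal.ofReal_mul (he c).1]
      rw [lev_mul, (lv_spec hd n k hg).1, mul_assoc]
    rw [(lv_spec hd n (k + 1) hg).1, ← ENNReal.ofReal_mul (av_spec hd n he).2.1,
      ENNReal.ofReal_eq_ofReal_iff (lv_spec hd n (k + 1) hg).2.1
        (mul_nonneg (av_spec hd n he).2.1 (lv_spec hd n k hg).2.1),
      lv_compl hd n (k + 1) mH, lv_compl hd n k mH, av_compl hd n eH] at key
    linarith
  · have hp : ∀ c r, ENNReal.ofReal (tF (q := q) sV l (.cons c r) (n + 1))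
        + ENNReal.ofReal (eF D.qf l n c) * ENNReal.ofReal (tF (q := q) sV l r (n + 1))
        + ENNReal.ofReal (eF (q := q) sV l n c) * ENNReal.ofReal (tF D.qf l r (n + 1))
        ≤ ENNReal.ofReal (eF (q := q) sV l n c) * 1 + ENNReal.ofReal (tF (q := q) sV l r (n + 1))
        + ENNReal.ofReal (eF D.qf l n c) * ENNReal.ofReal (tF (q := q) hB l r (n + 1))
        + ENNReal.ofReal (eF (q := q) hB l n c) * ENNReal.ofReal (tF D.qf l r (n + 1)) := by
      intro c r
      have a1 := (mX (.cons c r)).1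
      have a2 := mul_nonneg (eQ c).1 (mX r).1
      have a3 := mul_nonneg (eX c).1 (mQ r).1
      have a4 := mul_nonneg (eQ c).1 (mH r).1
      have a5 := mul_nonneg (eH c).1 (mQ r).1
      have a6 := (eX c).1
      have a7 := (mX r).1
      rw [mul_one, ← ENNReal.ofReal_mul (eQ c).1, ← ENNReal.ofReal_mul (eX c).1,
        ← ENNReal.ofReal_mul (eQ c).1, ← ENNReal.ofReal_mul (eH c).1,
        ← ENNReal.ofReal_add a1 a2, ← ENNReal.ofReal_add (add_nonneg a1 a2) a3,
        ← ENNReal.ofReal_add a6 a7, ← ENNReal.ofReal_add (add_nonneg a6 a7) a4,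
        ← ENNReal.ofReal_add (add_nonneg (add_nonneg a6 a7) a4) a5]
      exact ENNReal.ofReal_le_ofReal (tX_cons D h0 h1 c r n)
    have key := ENNReal.tsum_le_tsum fun c =>
      mul_le_mul_right (lev_mono (wgt d n) k (fun r => hp c r)) (wgt d n c)
    simp only [lev_add, lev_mul, lev_const _ (tsum_wgt hd n), mul_one, (lv_spec hd n k mX).1,
      (lv_spec hd n k mH).1, (lv_spec hd n k mQ).1, mul_add, ENNReal.tsum_add,
      ← mul_assoc, ENNReal.tsum_mul_right, tsum_wgt hd n,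
      one_mul, (av_spec hd n eX).1, (av_spec hd n eQ).1, (av_spec hd n eH).1] at key
    rw [← lev_succ (wgt d n) (fun t => ENNReal.ofReal (tF (q := q) sV l t (n + 1))) k,
      (lv_spec hd n (k + 1) mX).1] at key
    obtain ⟨-, x0, -⟩ := lv_spec hd n k mX
    obtain ⟨-, y0, -⟩ := lv_spec hd n k mH
    obtain ⟨-, g0, -⟩ := lv_spec hd n k mQ
    obtain ⟨-, x1, -⟩ := lv_spec hd n (k + 1) mX
    obtain ⟨-, X0, -⟩ := av_spec hd n eX
    obtain ⟨-, H0, -⟩ := av_spec hd n eH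
    obtain ⟨-, Q0, -⟩ := av_spec hd n eQ
    rw [← ENNReal.ofReal_mul Q0, ← ENNReal.ofReal_mul X0, ← ENNReal.ofReal_mul Q0,
      ← ENNReal.ofReal_mul H0, ← ENNReal.ofReal_add x1 (mul_nonneg Q0 x0),
      ← ENNReal.ofReal_add (by positivity) (mul_nonneg X0 g0), ← ENNReal.ofReal_add X0 x0,
      ← ENNReal.ofReal_add (by positivity) (mul_nonneg Q0 y0),
      ← ENNReal.ofReal_add (by positivity) (mul_nonneg H0 g0),
      ENNReal.ofReal_le_ofReal_iff (by positivity)] at key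
    linarith

/-- The averaged root functional. -/
noncomputable def mGW' (f : (Fin q → ℝ) → ℝ) (l d : ℝ) (n : ℕ) : ℝ :=
  av d n fun t => tF f l t n

lemma root_avg (hd : 0 ≤ d) (n : ℕ) {F : Tree → ℝ} (hF : ∀ t, 0 ≤ F t ∧ F t ≤ 1) :
    ENNReal.ofReal (av d (n + 1) F) = ∑' k, pw d k * ENNReal.ofReal (lv d n k F) := by
  rw [← (av_spec hd (n + 1) hF).1]
  refine (Ex_succ hd n _).trans (tsum_congr fun k => ?_)
  rw [(lv_spec hd n k hF).1]

lemma root_le (hd : 0 ≤ d) (n : ℕ) {F : Tree → ℝ} (hF : ∀ t, 0 ≤ F t ∧ F t ≤ 1) {u G : ℝ}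
    (hu : 0 ≤ u) (hG : 0 ≤ G) (hk : ∀ k, lv d n k F ≤ k * u) (h2 : lv d n 2 F ≤ 2 * u - G) :
    av d (n + 1) F ≤ d * u - Real.exp (-d) * d ^ 2 / 2 * G := by
  have hp : pw d 2 = ENNReal.ofReal (Real.exp (-d) * d ^ 2 / 2) := by simp [pw, Nat.factorial]
  have key : ∑' k, (pw d k * ENNReal.ofReal (lv d n k F)
      + if k = 2 then pw d 2 * ENNReal.ofReal G else 0)
      ≤ ∑' k : ℕ, pw d k * (k : ℝ≥0∞) * ENNReal.ofReal u := by
    refine ENNReal.tsum_le_tsum fun k => ?_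
    rw [mul_assoc, ← ENNReal.ofReal_natCast, ← ENNReal.ofReal_mul (Nat.cast_nonneg k)]
    split_ifs with h
    · subst h
      rw [← mul_add, ← ENNReal.ofReal_add (lv_spec hd n 2 hF).2.1 hG]
      refine mul_le_mul_right (ENNReal.ofReal_le_ofReal ?_) _
      push_cast
      linarith
    · rw [add_zero]
      exact mul_le_mul_right (ENNReal.ofReal_le_ofReal (hk k)) _
  rw [ENNReal.tsum_add, ← root_avg hd n hF, tsum_ite_eq, ENNReal.tsum_mul_right, tsum_pw_mul hd,
    hp, ← ENNReal.ofReal_mul hd, ← ENNReal.ofReal_mul (by positivity),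
    ← ENNReal.ofReal_add (av_spec hd (n + 1) hF).2.1 (mul_nonneg (by positivity) hG),
    ENNReal.ofReal_le_ofReal_iff (mul_nonneg hd hu)] at key
  linarith

include D in
lemma child_avg (hd : 0 ≤ d) (h0 : 0 ≤ l) (h1 : l ≤ 1) (n : ℕ) :
    av d n (eF (q := q) sV l n) = l ^ 2 * mGW' (q := q) sV l d n ∧
      av d n (eF (q := q) hB l n) ≤ l ^ 2 * mGW' (q := q) sV l d n
        + l ^ 3 * (mGW' (q := q) hB l d n - mGW' (q := q) sV l d n) ∧
      D.κ * av d n (eF (q := q) sV l n) ≤ av d n (eF D.qf l n) := by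
  have mX : ∀ t, 0 ≤ tF (q := q) sV l t n ∧ tF (q := q) sV l t n ≤ 1 :=
    fun t => (tF_mem D h0 h1 t n).1
  have mH : ∀ t, 0 ≤ tF (q := q) hB l t n ∧ tF (q := q) hB l t n ≤ 1 :=
    fun t => (tF_mem D h0 h1 t n).2.1
  have eX := fun c => (eF_mem D h0 h1 n c).1
  have eH := fun c => (eF_mem D h0 h1 n c).2.1
  have eQ := fun c => (eF_mem D h0 h1 n c).2.2
  have sX := summable_bdd hd n (fun t => (mX t).1) (fun t => (mX t).2)
  have sH := summable_bdd hd n (fun t => (mH t).1) (fun t => (mH t).2)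
  refine ⟨?_, ?_, ?_⟩
  · rw [(av_spec hd n eX).2.2.2, mGW', (av_spec hd n mX).2.2.2, ← tsum_mul_left]
    exact tsum_congr fun t => by rw [eX_eq D h0 h1]; ring
  · rw [(av_spec hd n eH).2.2.2, mGW', mGW', (av_spec hd n mX).2.2.2, (av_spec hd n mH).2.2.2,
      ← Summable.tsum_sub sH sX, ← tsum_mul_left, ← tsum_mul_left,
      ← Summable.tsum_add (sX.mul_left _) ((sH.sub sX).mul_left _)]
    refine Summable.tsum_le_tsum (fun t => ?_)
      (summable_bdd hd n (fun t => (eH t).1) (fun t => (eH t).2))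
      ((sX.mul_left _).add ((sH.sub sX).mul_left _))
    have := mul_le_mul_of_nonneg_left (eH_le D h0 h1 n t) (gwProb_nonneg hd n t)
    linarith
  · rw [(av_spec hd n eX).2.2.2, (av_spec hd n eQ).2.2.2, ← tsum_mul_left]
    refine Summable.tsum_le_tsum (fun t => ?_)
      ((summable_bdd hd n (fun t => (eX t).1) (fun t => (eX t).2)).mul_left _)
      (summable_bdd hd n (fun t => (eQ t).1) (fun t => (eQ t).2))
    have := mul_le_mul_of_nonneg_left (eQ_ge D h0 h1 n t) (gwProb_nonneg hd n t)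
    linarith

include D in
lemma gw_tendsto_zero (hd : 0 < d) (h0 : 0 ≤ l) (h1 : l ≤ 1) (hq : d * l ^ 2 ≤ 1) :
    Tendsto (fun n => max (mGW' (q := q) sV l d n) (mGW' (q := q) hB l d n)) atTop (𝓝 0) := by
  set z := fun n => max (mGW' (q := q) sV l d n) (mGW' (q := q) hB l d n) with hz
  have mX := fun n t => (tF_mem D h0 h1 t n).1
  have mH := fun n t => (tF_mem D h0 h1 t n).2.1
  have hz0 : ∀ n, 0 ≤ z n := fun n => ((av_spec hd.le n (mX n)).2.1).trans (le_max_left _ _)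
  have hu1 : ∀ n, l ^ 2 * z n ≤ 1 := fun n => mul_le_one₀ (pow_le_one₀ h0 h1) (hz0 n)
    (max_le (av_spec hd.le n (mX n)).2.2.1 (av_spec hd.le n (mH n)).2.2.1)
  have hux : ∀ n, av d n (eF (q := q) sV l n) ≤ l ^ 2 * z n := fun n => by
    rw [(child_avg D hd.le h0 h1 n).1]
    exact mul_le_mul_of_nonneg_left (le_max_left _ _) (sq_nonneg l)
  have huh : ∀ n, av d n (eF (q := q) hB l n) ≤ l ^ 2 * z n := fun n => by
    refine (child_avg D hd.le h0 h1 n).2.1.trans ?_
    have h23 : 0 ≤ l ^ 2 - l ^ 3 := sub_nonneg.2 (pow_le_pow_of_le_one h0 h1 (by norm_num))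
    have a := mul_le_mul_of_nonneg_left
      (le_max_left (mGW' (q := q) sV l d n) (mGW' (q := q) hB l d n)) h23
    have b := mul_le_mul_of_nonneg_left
      (le_max_right (mGW' (q := q) sV l d n) (mGW' (q := q) hB l d n)) (pow_nonneg h0 3)
    simp only [hz]
    linarith
  have hdu : ∀ n, d * (l ^ 2 * z n) ≤ z n := fun n => by
    rw [← mul_assoc]; exact mul_le_of_le_one_left (hz0 n) hq
  have step : ∀ n, ∀ G, 0 ≤ G →
      max (lv d n 2 fun t => tF (q := q) sV l t (n + 1))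
        (lv d n 2 fun t => tF (q := q) hB l t (n + 1)) ≤ 2 * (l ^ 2 * z n) - G →
      z (n + 1) ≤ d * (l ^ 2 * z n) - Real.exp (-d) * d ^ 2 / 2 * G := by
    intro n G hG h2
    have F := fam_gw D hd.le h0 h1 n
    have hu := mul_nonneg (sq_nonneg l) (hz0 n)
    refine max_le ?_ ?_
    · exact root_le hd.le n (mX (n + 1)) hu hG
        (fun k => (le_max_left _ _).trans (F.max_le_mul (hux n) (huh n) k))
        ((le_max_left _ _).trans h2)
    · exact root_le hd.le n (mH (n + 1)) hu hG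
        (fun k => (le_max_right _ _).trans (F.max_le_mul (hux n) (huh n) k))
        ((le_max_right _ _).trans h2)
  have hle : ∀ n, z (n + 1) ≤ d * (l ^ 2 * z n) := fun n => by
    have := step n 0 le_rfl (by
      simpa using (fam_gw D hd.le h0 h1 n).max_le_mul (hux n) (huh n) 2)
    simpa using this
  rcases h0.eq_or_lt with hl | hl
  · rw [← tendsto_add_atTop_iff_nat 1]
    refine squeeze_zero (fun n => hz0 _) (fun n => ?_) tendsto_const_nhds
    simpa [← hl] using hle n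
  refine potential_to_zero (p := Real.exp (-d) * d ^ 2 / 2) (a := l ^ 2) (b := 2 * D.κ * l ^ 5)
    (by positivity) (by positivity) (mul_pos (mul_pos two_pos D.κ_pos) (pow_pos hl 5))
    (fun n => (av_spec hd.le n (mX n)).2.1)
    (fun n => (hle n).trans (hdu n)) (fun n => ?_) (fun n hn => ?_)
  · have F := fam_gw D hd.le h0 h1 n
    have := root_le hd.le n (mH (n + 1)) (mul_nonneg (sq_nonneg l) (hz0 n))
      (sq_nonneg (l ^ 2 * z n)) (F.h_le (huh n)) (F.h_two (huh n) (hu1 n))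
    have := hdu n
    simp only [mGW', hz] at *
    linarith
  · have F := fam_gw D hd.le h0 h1 n
    have hx0 := (av_spec hd.le n (mX n)).2.1
    obtain ⟨e1, e2, e3⟩ := child_avg D hd.le h0 h1 n
    have h2 := F.gain_two h0 D.κ_pos.le hx0 e1 e2 e3 hn (hux n) (huh n) (hu1 n)
    have hG : 0 ≤ min ((l ^ 2 * z n) ^ 2) (2 * D.κ * l ^ 5
        * (mGW' (q := q) sV l d n * (mGW' (q := q) sV l d n - mGW' (q := q) hB l d n))) :=
      le_min (sq_nonneg _) (mul_nonneg
        (mul_nonneg (mul_nonneg zero_le_two D.κ_pos.le) (pow_nonneg h0 5))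
        (mul_nonneg hx0 (sub_nonneg.2 hn)))
    have := step n _ hG h2
    have := hdu n
    simp only [hz] at *
    linarith

lemma aGW_summable (D : Data q) (hd : 0 ≤ d) (h0 : 0 ≤ l) (h1 : l ≤ 1) (n : ℕ) :
    Summable (fun t => gwProb d n t * aTree q l t n) :=
  summable_bdd hd n (fun t => aTree_nonneg D h0 h1 t n) (aTree_le_two D h0 h1 · n)

include D in
theorem gw_nonreconstruction (hd : 0 < d) (h0 : 0 ≤ l) (h1 : l ≤ 1) (hq : d * l ^ 2 ≤ 1) :
    Tendsto (aGW q l d) atTop (𝓝 0) := by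
  refine tv_zero (q_pos D.two) (gw_tendsto_zero D hd h0 h1 hq)
    (fun n => tsum_nonneg fun t =>
      mul_nonneg (gwProb_nonneg hd.le n t) (aTree_nonneg D h0 h1 t n)) fun n η hη => ?_
  have mX := fun t => (tF_mem D h0 h1 t n).1
  have sX := summable_bdd hd.le n (fun t => (mX t).1) (fun t => (mX t).2)
  have h2 : aGW q l d n ≤ ∑' t, ((q * η) * gwProb d n t
      + gwProb d n t * tF (q := q) sV l t n / (8 * η)) :=
    Summable.tsum_le_tsum (fun t => by
      refine (mul_le_mul_of_nonneg_left (aTree_le D h0 h1 t n hη)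
        (gwProb_nonneg hd.le n t)).trans (le_of_eq ?_)
      ring) (aGW_summable D hd.le h0 h1 n)
      (((summable_gw hd.le n).mul_left _).add (sX.div_const _))
  rw [Summable.tsum_add ((summable_gw hd.le n).mul_left _) (sX.div_const _), tsum_mul_left,
    gw_total hd.le, tsum_div_const, mul_one, ← (av_spec hd.le n mX).2.2.2] at h2
  refine h2.trans ?_
  gcongr
  exact le_max_left _ _

include D in
lemma gw_step (hd : 0 ≤ d) (h0 : 0 ≤ l) (h1 : l ≤ 1) (n : ℕ) :
    d * l ^ 2 * mGW' (q := q) sV l d n / (1 + d * l ^ 2 * mGW' (q := q) sV l d n)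
      ≤ mGW' (q := q) sV l d (n + 1) := by
  have mX := fun n t => (tF_mem D h0 h1 t n).1
  have eX := fun c => (eF_mem D h0 h1 n c).1
  have hm : 0 ≤ mGW' (q := q) sV l d n := (av_spec hd n (mX n)).2.1
  have hm1 : 0 ≤ mGW' (q := q) sV l d (n + 1) := (av_spec hd (n + 1) (mX (n + 1))).2.1
  have he : ∑' t, wgt d n t * ENNReal.ofReal (eF (q := q) sV l n t)
      = ENNReal.ofReal (l ^ 2 * mGW' (q := q) sV l d n) := by
    rw [(av_spec hd n eX).1, (child_avg D hd h0 h1 n).1]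
  have hS : Ex d (n + 1) (fun t => ENNReal.ofReal (kidsSum (eF (q := q) sV l n) t))
      = ENNReal.ofReal (d * l ^ 2 * mGW' (q := q) sV l d n) := by
    simp only [ofReal_kidsSum (fun c => (eX c).1)]
    rw [Ex_succ hd]
    simp only [lev_kSum _ _ (tsum_wgt hd n), he, ← mul_assoc]
    rw [ENNReal.tsum_mul_right, tsum_pw_mul hd, ← ENNReal.ofReal_mul hd, mul_assoc]
  have hP : Ex d (n + 1) (fun t => ENNReal.ofReal (kidsPairs (eF (q := q) sV l n) t))
      = ENNReal.ofReal ((d * l ^ 2 * mGW' (q := q) sV l d n) ^ 2) := by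
    simp only [ofReal_kidsPairs (fun c => (eX c).1)]
    rw [Ex_succ hd]
    simp only [lev_kPairs _ _ (tsum_wgt hd n), he, ← mul_assoc]
    rw [ENNReal.tsum_mul_right, tsum_pw_pairs hd,
      ← ENNReal.ofReal_pow (mul_nonneg (sq_nonneg l) hm),
      ← ENNReal.ofReal_pow hd, ← ENNReal.ofReal_mul (sq_nonneg d)]
    congr 1; ring
  set u := d * l ^ 2 * mGW' (q := q) sV l d n with hu
  have hu0 : 0 ≤ u := mul_nonneg (mul_nonneg hd (sq_nonneg l)) hm
  set c := 1 / (1 + u) with hc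
  have hc0 : 0 ≤ c := by positivity
  have h := Ex_mono (d := d) (n + 1)
    (F := fun t => ENNReal.ofReal (2 * c) * ENNReal.ofReal (kidsSum (eF (q := q) sV l n) t))
    (G := fun t => ENNReal.ofReal (tF (q := q) sV l t (n + 1)) + ENNReal.ofReal (c ^ 2) *
      (ENNReal.ofReal (kidsSum (eF (q := q) sV l n) t)
        + ENNReal.ofReal (kidsPairs (eF (q := q) sV l n) t))) (fun t => by
    have hA := kidsSum_nonneg (fun c => (eX c).1) t
    have hB' := kidsPairs_nonneg (fun c => (eX c).1) t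
    rw [← ENNReal.ofReal_add hA hB', ← ENNReal.ofReal_mul (sq_nonneg c),
      ← ENNReal.ofReal_add (mX (n + 1) t).1 (mul_nonneg (sq_nonneg c) (add_nonneg hA hB')),
      ← ENNReal.ofReal_mul (by positivity)]
    exact ENNReal.ofReal_le_ofReal (tX_succ_ge D h0 h1 n t c))
  rw [Ex_mul, Ex_add, Ex_mul, Ex_add, hS, hP,
    show Ex d (n + 1) (fun t => ENNReal.ofReal (tF (q := q) sV l t (n + 1)))
      = ENNReal.ofReal (mGW' (q := q) sV l d (n + 1)) from (av_spec hd (n + 1) (mX (n + 1))).1,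
    ← ENNReal.ofReal_add hu0 (sq_nonneg u), ← ENNReal.ofReal_mul (sq_nonneg c),
    ← ENNReal.ofReal_add hm1 (mul_nonneg (sq_nonneg c) (by positivity)),
    ← ENNReal.ofReal_mul (by positivity),
    ENNReal.ofReal_le_ofReal_iff (add_nonneg hm1 (by positivity))] at h
  have e : 2 * c * u - c ^ 2 * (u + u ^ 2) = u / (1 + u) := by
    rw [hc]
    have : 1 + u ≠ 0 := by linarith
    field_simp; ring
  linarith

include D in
theorem gw_reconstruction (hd : 0 < d) (h0 : 0 ≤ l) (h1 : l ≤ 1) (hq : 1 < d * l ^ 2) :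
    ∃ c > 0, ∀ n, c ≤ aGW q l d n := by
  have hq0 := q_pos D.two
  have mX := fun n t => (tF_mem D h0 h1 t n).1
  refine ⟨(d * l ^ 2 - 1) / (d * l ^ 2) / (2 * q),
    div_pos (div_pos (by linarith) (by linarith)) (by positivity), fun n => ?_⟩
  have h := seq_lower (m := mGW' (q := q) sV l d) hq ?_
    (fun n => (av_spec hd.le n (mX n)).2.1) (gw_step D hd.le h0 h1) n
  · have h2 : mGW' (q := q) sV l d n ≤ ∑' t, (2 * q : ℝ) * (gwProb d n t * aTree q l t n) := by
      rw [mGW', (av_spec hd.le n (mX n)).2.2.2]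
      refine Summable.tsum_le_tsum (fun t => ?_)
        (summable_bdd hd.le n (fun t => (mX n t).1) (fun t => (mX n t).2))
        ((aGW_summable D hd.le h0 h1 n).mul_left _)
      refine (mul_le_mul_of_nonneg_left (tX_le_aTree D h0 h1 t n)
        (gwProb_nonneg hd.le n t)).trans (le_of_eq ?_)
      ring
    rw [tsum_mul_left] at h2
    rw [div_le_iff₀ (by positivity)]
    refine h.trans (h2.trans (le_of_eq ?_))
    unfold aGW; ring
  · rw [mGW', (av_spec hd.le 0 (mX 0)).2.2.2]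
    simp only [tX_zero D.two, mul_one, gw_total hd.le]
    rw [div_le_one (by linarith)]; linarith

end Vale.Agent.P154.Q
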