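import Mathlib
import Vale.Agent.P154.Q.GaltonWatson

namespace Vale.Agent.P154.Q

open Filter Topology

theorem tree_nonreconstruction {q : ℕ} (D : Data q) {l : ℝ} (h0 : 0 ≤ l) (h1 : l ≤ 1)
    (T : ℕ → Tree)
    (hT : Tendsto (fun n => (levelSize (T n) n : ℝ) * l ^ (2 * n)) atTop (𝓝 0)) :
    Tendsto (fun n => aTree q l (T n) n) atTop (𝓝 0) :=
  tv_zero (q_pos D.two) hT (fun _ => aTree_nonneg D h0 h1 _ _) fun n η hη =>
    (aTree_le D h0 h1 _ n hη).trans (by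
      gcongr; exact (le_max_left _ _).trans (tZ_le_level D h0 h1 (T n) n))

/-- The Kesten-Stigum bound is exact given the two pointwise certificates. -/
theorem threshold_of_cert {q : ℕ} (hq : 2 ≤ q) (hE : EdgeCert q) (hP : PairCert q) :
    (∀ d : ℕ, 2 ≤ d → ∀ l ∈ Set.Icc (0 : ℝ) 1,
      ((d : ℝ) * l ^ 2 ≤ 1 → Tendsto (aReg q l d) atTop (𝓝 0)) ∧
      (1 < (d : ℝ) * l ^ 2 → ∃ c > 0, ∀ n, c ≤ aReg q l d n)) ∧
    (∀ d : ℝ, 0 < d → ∀ l ∈ Set.Icc (0 : ℝ) 1,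
      (d * l ^ 2 ≤ 1 → Tendsto (aGW q l d) atTop (𝓝 0)) ∧
      (1 < d * l ^ 2 → ∃ c > 0, ∀ n, c ≤ aGW q l d n)) ∧
    (∀ l ∈ Set.Icc (0 : ℝ) 1, ∀ T : ℕ → Tree,
      Tendsto (fun n => (levelSize (T n) n : ℝ) * l ^ (2 * n)) atTop (𝓝 0) →
      Tendsto (fun n => aTree q l (T n) n) atTop (𝓝 0)) := by
  obtain ⟨D⟩ := exists_data hq hE hP
  exact ⟨fun _ hd _ hl => ⟨reg_nonreconstruction D hl.1 hl.2 hd, reg_reconstruction D hl.1 hl.2⟩,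
    fun _ hd _ hl => ⟨gw_nonreconstruction D hd hl.1 hl.2, gw_reconstruction D hd hl.1 hl.2⟩,
    fun _ hl T => tree_nonreconstruction D hl.1 hl.2 T⟩

end Vale.Agent.P154.Q
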